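import Vale.Agent.P337.Core

/-!
Real analysis and real algebra: limits of critical points, persistence of signs and of simple
roots, bounds for roots, and the number of sign conditions.
-/

namespace Vale.Agent.N337

open Vale.Agent.P337 Finset Filter Topology

section Mv

open MvPolynomial

variable {σ : Type*} [Fintype σ] [DecidableEq σ]

omit [Fintype σ] [DecidableEq σ] in
theorem eval_map_ofReal {R : Type*} [CommRing R] (φ : R →+* ℝ) (η : σ → ℝ)
    (g : MvPolynomial σ R) :
    eval (fun i => (η i : ℂ)) (map (Complex.ofRealHom.comp φ) g) = ((eval₂Hom φ η g : ℝ) : ℂ) := by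
  rw [← MvPolynomial.map_map, eval_ofReal, eval_map, coe_eval₂Hom]

theorem cpoly_root {R : Type*} [CommRing R] (φ : R →+* ℝ) {e K : ℕ} (he : 1 ≤ e)
    {r : σ → MvPolynomial σ R} (hr : ∀ i, Dg ((e : ℤ) - 1) (r i)) {g : MvPolynomial σ R}
    (hg : e ^ Fintype.card σ * g.totalDegree ≤ K) :
    φ ((cpoly e K r g).coeff (e ^ Fintype.card σ)) = QQ (e ^ Fintype.card σ) ∧
      ∀ η : σ → ℝ, (∀ i, eval₂Hom φ η (sys e r i) = 0) →
        ∑ k ∈ range (e ^ Fintype.card σ + 1),
          φ ((cpoly e K r g).coeff k) * eval₂Hom φ η g ^ k = 0 := by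
  set ψ := Complex.ofRealHom.comp φ with hψ
  obtain ⟨Z, h1, h2, h3, -⟩ := exists_roots_EE he (r := fun i => map ψ (r i))
    fun i => (hr i).map ψ
  have h4 : ∀ k ≤ e ^ Fintype.card σ, ((φ (EE e K r g k) : ℝ) : ℂ) =
      QQ (e ^ Fintype.card σ) * (Z.map fun η => eval η (map ψ g)).esymm k := fun k hk => by
    rw [← h3 K (map ψ g) ((Nat.mul_le_mul_left _
      ((dg_totalDegree g).map ψ).totalDegree_le).trans hg) k hk,
      ← map_EE]
    rfl
  refine ⟨?_, fun η hη => ?_⟩
  · apply Complex.ofReal_injective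
    rw [coeff_cpoly, if_pos le_rfl, Nat.sub_self, pow_zero, one_mul, h4 0 (Nat.zero_le _),
      esymm_zero', mul_one, Complex.ofReal_natCast]
  · have hmem : (fun i => (η i : ℂ)) ∈ Z := (h1 _).2 fun i => by
      rw [← map_sys, eval_map_ofReal, hη, Complex.ofReal_zero]
    have h5 := sum_esymm_eq_prod (Z.map fun η => eval η (map ψ g)) ((eval₂Hom φ η g : ℝ) : ℂ)
    rw [Multiset.prod_eq_zero (Multiset.mem_map.2 ⟨_, Multiset.mem_map_of_mem _ hmem, by
      rw [eval_map_ofReal, sub_self]⟩), Multiset.card_map, h2] at h5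
    apply Complex.ofReal_injective
    rw [← sum_range_reflect, Complex.ofReal_zero, ← mul_zero ((QQ (e ^ Fintype.card σ) : ℕ) : ℂ),
      ← h5, mul_sum, Complex.ofReal_sum]
    refine sum_congr rfl fun k hk => ?_
    have hk' : k ≤ e ^ Fintype.card σ := Nat.lt_succ_iff.1 (mem_range.1 hk)
    rw [Nat.add_sub_cancel, coeff_cpoly, if_pos (Nat.sub_le _ _), Nat.sub_sub_self hk', map_mul]
    push_cast
    rw [h4 k hk']
    simp only [map_pow, map_neg, map_one]
    push_cast
    ring

theorem crit_of_isLocalMin {e : ℕ} {t : ℝ} {P : MvPolynomial σ ℝ} {x : σ → ℝ}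
    (h : IsLocalMin (fun y => eval y (hh e t P)) x) (i : σ) : eval x (sys e (rr t P) i) = 0 := by
  have h1 : IsLocalMin (fun s => eval (Function.update x i s) (hh e t P)) (x i) := by
    refine IsLocalMin.comp_continuous (f := fun y => eval y (hh e t P))
      (g := Function.update x i) ?_ (continuous_const.update i continuous_id).continuousAt
    rwa [Function.update_eq_self]
  have h2 := h1.hasDerivAt_eq_zero (hasDerivAt_update _ x i)
  rw [pderiv_hh, map_mul, eval_C, mul_eq_zero] at h2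
  exact h2.resolve_left (by positivity)

/-- A locally constant property of the zeros of `P` which holds at one zero holds at a zero which
is a limit of critical points. -/
theorem sample {e : ℕ} (he : Odd e) {P : MvPolynomial σ ℝ} (hP : ∀ x, 0 ≤ eval x P)
    {φ : (σ → ℝ) → Prop}
    (hφ : ∀ y₀, eval y₀ P = 0 → ∀ᶠ y in 𝓝 y₀, eval y P = 0 → (φ y ↔ φ y₀)) {y₀ : σ → ℝ}
    (h0 : eval y₀ P = 0) (h1 : φ y₀) :
    ∃ y, eval y P = 0 ∧ φ y ∧
      ∀ U ∈ 𝓝 y, ∃ᶠ t : ℝ in atTop, ∃ z ∈ U, ∀ i, eval z (sys e (rr t P) i) = 0 := by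
  set ν := eval y₀ (NN σ ℝ e) with hν
  set K : Set (σ → ℝ) := {y | eval y (NN σ ℝ e) ≤ ν + 1} with hK
  have hKc : IsClosed K := isClosed_le (continuous_eval _) continuous_const
  have hKk : IsCompact K := Metric.isCompact_of_isClosed_isBounded hKc
    ((Metric.isBounded_closedBall (x := (0 : σ → ℝ)) (r := max ((e : ℝ) + 2) (ν + 1))).subset
      fun y hy => mem_closedBall_zero_iff.2 (norm_le_of_NN he hy))
  have hcl : ∀ p : Prop, IsClosed {y | eval y P = 0 ∧ (φ y ↔ p)} := fun p => by
    refine isClosed_iff_frequently.2 fun x hx => ?_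
    have h2 : eval x P = 0 := (isClosed_iff_frequently.1
      (isClosed_eq (continuous_eval P) continuous_const)) x (hx.mono fun y hy => hy.1)
    obtain ⟨y, hy, hy'⟩ := (hx.and_eventually (hφ x h2)).exists
    exact ⟨h2, (hy' hy.1).symm.trans hy.2⟩
  obtain ⟨U, V, hU, hV, hAU, hBV, hUV⟩ := normal_separation (hcl True) (hcl False)
    (Set.disjoint_left.2 fun y hy hy' => hy'.2.1 (hy.2.2 trivial))
  have hC : IsCompact (K ∩ Vᶜ) := hKk.inter_right hV.isClosed_compl
  have hy₀ : y₀ ∈ K ∩ Vᶜ := ⟨by simp [hK, hν], fun h =>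
    Set.disjoint_left.1 hUV (hAU ⟨h0, iff_true_intro h1⟩) h⟩
  choose y hy hmin using fun t : ℝ =>
    hC.exists_isMinOn ⟨y₀, hy₀⟩ (continuous_eval (hh e t P)).continuousOn
  have hb : ∀ t, 0 ≤ t → eval (y t) (NN σ ℝ e) ≤ ν ∧ t * eval (y t) P ≤ ν := fun t ht => by
    have h2 : eval (y t) (hh e t P) ≤ eval y₀ (hh e t P) := hmin t hy₀
    rw [eval_hh, eval_hh, h0, mul_zero, add_zero] at h2
    have h3 := NN_nonneg (σ := σ) he (y t)
    have h4 := mul_nonneg ht (hP (y t))
    have h5 := mul_nonneg (Nat.cast_nonneg (α := ℝ) e) h4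
    constructor <;> nlinarith
  obtain ⟨z, hz, hcl'⟩ := hC.exists_mapClusterPt (f := atTop) (u := y)
    (tendsto_principal.2 (Eventually.of_forall hy))
  rw [mapClusterPt_iff_frequently] at hcl'
  have hz0 : eval z P = 0 := by
    by_contra hne
    have hpos : 0 < eval z P / 2 := half_pos (lt_of_le_of_ne (hP z) (Ne.symm hne))
    obtain ⟨t, h2, h3, h4⟩ := ((hcl' {w | eval z P / 2 < eval w P}
      ((isOpen_lt continuous_const (continuous_eval P)).mem_nhds (by
        simp only [Set.mem_ofPred_eq]; linarith))).and_eventually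
      ((eventually_ge_atTop 0).and (eventually_gt_atTop (ν / (eval z P / 2))))).exists
    rw [div_lt_iff₀ hpos] at h4
    have h5 := (hb t h3).2
    have h6 := mul_le_mul_of_nonneg_left (le_of_lt h2) h3
    linarith
  have hφz : φ z := by
    by_contra h2
    exact hz.2 (hBV ⟨hz0, iff_false_intro h2⟩)
  refine ⟨z, hz0, hφz, fun W hW => ?_⟩
  refine ((hcl' (W ∩ U) (inter_mem hW (hU.mem_nhds (hAU ⟨hz0, iff_true_intro hφz⟩)))).and_eventually
    (eventually_ge_atTop 0)).mono fun t ht => ⟨y t, ht.1.1, crit_of_isLocalMin ?_⟩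
  refine (hmin t).isLocalMin (inter_mem ?_ ?_)
  · exact mem_of_superset ((isOpen_lt (continuous_eval (NN σ ℝ e))
      (continuous_const (y := ν + 1))).mem_nhds (by
        have := (hb t ht.2).1
        simp only [Set.mem_ofPred_eq]
        linarith)) fun w hw => show eval w (NN σ ℝ e) ≤ ν + 1 from le_of_lt hw
  · exact mem_of_superset (hU.mem_nhds ht.1.2) fun w hw => Set.disjoint_left.1 hUV hw

theorem warren_strict {ι : Type*} [Fintype ι] (f : ι → MvPolynomial σ ℝ) {e : ℕ} (he : Odd e)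
    (hd : Dg e ((∏ j, f j) ^ 2)) (T : Finset (σ → ℝ)) (hT : ∀ x ∈ T, ∀ j, eval x (f j) ≠ 0)
    (hc : ∀ x ∈ T, IsCompact {y | ∀ j, 0 ≤ eval y (f j) * eval x (f j)})
    (hsep : ∀ x ∈ T, ∀ x' ∈ T, (∀ j, 0 < eval x (f j) * eval x' (f j)) → x = x') :
    T.card ≤ e ^ Fintype.card σ := by
  classical
  set P : MvPolynomial σ ℝ := -(∏ j, f j) ^ 2 with hP
  have hev : ∀ x, eval x P = -(∏ j, eval x (f j)) ^ 2 := fun x => by simp [hP]
  obtain ⟨t, ht⟩ := ((eventually_all_finset T).2 fun x hx => show ∀ᶠ t : ℝ in atTop,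
      eval x (hh e t P) < 0 from by
    have h1 : 0 < ((e : ℝ) + 1) * (∏ j, eval x (f j)) ^ 2 :=
      mul_pos (by positivity) (sq_pos_iff.2 (prod_ne_zero_iff.2 fun j _ => hT x hx j))
    filter_upwards [eventually_gt_atTop (eval x (NN σ ℝ e) / _)] with t ht
    rw [div_lt_iff₀ h1] at ht
    rw [eval_hh, hev]
    linarith).exists
  have key : ∀ x ∈ T, ∃ y, (∀ j, 0 < eval y (f j) * eval x (f j)) ∧
      ∀ i, eval y (sys e (rr t P) i) = 0 := fun x hx => by
    obtain ⟨y, hy, hmin⟩ := (hc x hx).exists_isMinOn ⟨x, fun j => mul_self_nonneg _⟩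
      (continuous_eval (hh e t P)).continuousOn
    have h1 : eval y (hh e t P) < 0 := lt_of_le_of_lt (hmin fun j => mul_self_nonneg _) (ht x hx)
    have h2 : ∀ j, 0 < eval y (f j) * eval x (f j) := fun j => by
      refine lt_of_le_of_ne (hy j) (mul_ne_zero (fun h0 => ?_) (hT x hx j)).symm
      rw [eval_hh, hev, prod_eq_zero (mem_univ j) h0] at h1
      have := NN_nonneg (σ := σ) he y
      simp at h1
      linarith
    refine ⟨y, h2, crit_of_isLocalMin (hmin.isLocalMin ?_)⟩
    have h3 : ∀ᶠ w in 𝓝 y, ∀ j, 0 < eval w (f j) * eval x (f j) := eventually_all.2 fun j =>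
      (isOpen_lt continuous_const ((continuous_eval (f j)).mul continuous_const)).mem_nhds (h2 j)
    exact h3.mono fun w hw j => (hw j).le
  choose! m hm1 hm2 using key
  obtain ⟨Z, h1, h2, -⟩ := exists_roots_EE he.pos (r := fun i => map Complex.ofRealHom (rr t P i))
    fun i => (dg_rr he.pos hd.neg t i).map _
  rw [← h2]
  refine le_trans (card_le_card_of_injOn (fun x i => (m x i : ℂ)) (fun x hx => ?_)
    fun x hx x' hx' h => ?_) (Multiset.toFinset_card_le Z)
  · rw [mem_coe, Multiset.mem_toFinset, h1]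
    intro i
    rw [← map_sys, eval_ofReal, hm2 x hx, Complex.ofReal_zero]
  · have h3 : m x = m x' := funext fun i => Complex.ofReal_injective (congrFun h i)
    refine hsep x hx x' hx' fun j => ?_
    have h4 := mul_pos (hm1 x hx j) (hm1 x' hx' j)
    rw [h3] at h4
    by_contra h5
    nlinarith [mul_nonneg (mul_self_nonneg (eval (m x') (f j))) (neg_nonneg.2 (not_lt.1 h5))]

/-- The number of sign conditions realised by `J` polynomials of degree at most `d`. -/
theorem warren {J d : ℕ} (g : Fin J → MvPolynomial σ ℝ) (hg : ∀ j, (g j).totalDegree ≤ d) :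
    (Set.range fun (x : σ → ℝ) j => SignType.sign (eval x (g j))).ncard ≤
      (2 * ((2 * J + 1) * (d + 2)) + 1) ^ Fintype.card σ := by
  classical
  set sv := fun (x : σ → ℝ) j => SignType.sign (eval x (g j)) with hsv
  set T : Finset (σ → ℝ) := (Set.toFinite (Set.range sv)).toFinset.image (Function.invFun sv)
  have hinv : ∀ s ∈ (Set.toFinite (Set.range sv)).toFinset, sv (Function.invFun sv s) = s :=
    fun s hs => Function.invFun_eq (Set.mem_range.1 ((Set.Finite.mem_toFinset _).1 hs))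
  have hT : ∀ x ∈ T, Function.invFun sv (sv x) = x := fun x hx => by
    obtain ⟨s, hs, rfl⟩ := mem_image.1 hx
    rw [hinv s hs]
  have hcard : (Set.range sv).ncard = T.card := by
    rw [Set.ncard_eq_toFinset_card _ (Set.toFinite _), card_image_of_injOn]
    intro s hs s' hs' h
    rw [← hinv s hs, h, hinv s' hs']
  obtain ⟨ε, hε, hε0⟩ := (((eventually_all_finset T).2 fun x _ => eventually_all.2 fun j =>
    show ∀ᶠ ε : ℝ in 𝓝[>] 0, eval x (g j) ≠ 0 → ε < |eval x (g j)| from by
      by_cases h : eval x (g j) = 0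
      · exact Eventually.of_forall fun _ h' => (h' h).elim
      · exact (eventually_nhdsWithin_of_eventually_nhds
          (eventually_lt_nhds (abs_pos.2 h))).mono fun _ h' _ => h').and
    self_mem_nhdsWithin).exists
  replace hε0 : 0 < ε := hε0
  obtain ⟨R, hR⟩ := ((eventually_all_finset T).2 fun x _ =>
    eventually_gt_atTop (∑ i, x i ^ 2)).exists
  have htri : ∀ x ∈ T, ∀ j, (eval x (g j) = 0 ∨ ε < eval x (g j)) ∨ eval x (g j) < -ε :=
    fun x hx j => by
      by_cases h : eval x (g j) = 0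
      · exact Or.inl (Or.inl h)
      · exact (lt_abs.1 (hε x hx j h)).imp Or.inr fun h' => by linarith
  let f : Option (Fin J × Bool) → MvPolynomial σ ℝ := fun o =>
    o.elim (C R - ∑ i, X i ^ 2) fun p => g p.1 + C (if p.2 then ε else -ε)
  have f0 : ∀ x, eval x (f none) = R - ∑ i, x i ^ 2 := fun x => by simp [f]
  have f1 : ∀ x j, eval x (f (some (j, true))) = eval x (g j) + ε := fun x j => by simp [f]
  have f2 : ∀ x j, eval x (f (some (j, false))) = eval x (g j) - ε := fun x j => by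
    simp [f, sub_eq_add_neg]
  rw [hcard]
  refine warren_strict f (odd_two_mul_add_one _) ?_ T (fun x hx o => ?_) (fun x hx => ?_)
    fun x hx x' hx' h => ?_
  · have h1 : ∀ o, Dg ((d + 2 : ℕ) : ℤ) (f o) := by
      rintro (_ | p)
      · exact ((Dg.C _).mono (by omega)).sub (Dg.sum _ fun i _ => (Dg.X_pow i 2).mono (by omega))
      · exact ((dg_iff.2 (hg p.1)).mono (by omega)).add ((Dg.C _).mono (by omega))
    refine ((Dg.prod univ fun o _ => h1 o).pow 2).mono ?_
    simp only [card_univ, Fintype.card_option, Fintype.card_prod, Fintype.card_fin,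
      Fintype.card_bool]
    push_cast
    nlinarith
  · rcases o with _ | ⟨j, _ | _⟩
    · rw [f0]
      exact (sub_pos.2 (hR x hx)).ne'
    · rw [f2]
      rcases htri x hx j with (h | h) | h <;> intro h' <;> linarith
    · rw [f1]
      rcases htri x hx j with (h | h) | h <;> intro h' <;> linarith
  · refine Metric.isCompact_of_isClosed_isBounded ?_
      ((Metric.isBounded_closedBall (x := (0 : σ → ℝ)) (r := |R| + 1)).subset fun y hy => ?_)
    · rw [Set.ofPred_forall]
      exact isClosed_iInter fun j => isClosed_le continuous_const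
        ((continuous_eval (f j)).mul continuous_const)
    · have h1 := hy none
      rw [f0, f0] at h1
      have h2 := nonneg_of_mul_nonneg_left h1 (sub_pos.2 (hR x hx))
      rw [mem_closedBall_zero_iff, pi_norm_le_iff_of_nonneg (by positivity)]
      intro i
      have h3 := single_le_sum (f := fun i => y i ^ 2) (fun i _ => sq_nonneg _) (mem_univ i)
      have h4 := le_abs_self R
      rw [Real.norm_eq_abs, abs_le]
      constructor <;> nlinarith [abs_nonneg R, sq_nonneg (y i - 1), sq_nonneg (y i + 1)]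
  · rw [← hT x hx, ← hT x' hx']
    congr 1
    funext j
    have h1 := h (some (j, true))
    have h2 := h (some (j, false))
    rw [f1, f1] at h1
    rw [f2, f2] at h2
    simp only [hsv]
    rcases htri x hx j with (a | a) | a <;> rcases htri x' hx' j with (b | b) | b
    · rw [a, b]
    · nlinarith
    · nlinarith
    · nlinarith
    · rw [sign_pos (hε0.trans a), sign_pos (hε0.trans b)]
    · nlinarith
    · nlinarith
    · nlinarith
    · rw [sign_neg (by linarith), sign_neg (by linarith)]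

end Mv

theorem top_zero (L : ℕ) {a : ℕ → ℝ → ℝ} (ha : ∀ l, Continuous (a l)) {u₀ : ℝ}
    (h : ∀ U ∈ 𝓝 u₀, ∃ᶠ t : ℝ in atTop, ∃ u ∈ U, ∑ l ∈ range (L + 1), a l u * t ^ l = 0) :
    a L u₀ = 0 := by
  by_contra hne
  have hG : Continuous fun z : ℝ × ℝ => ∑ l ∈ range (L + 1), a l z.1 * z.2 ^ (L - l) :=
    continuous_finsetSum _ fun l _ => ((ha l).comp continuous_fst).mul (continuous_snd.pow _)
  have h1 : ∀ᶠ z : ℝ × ℝ in 𝓝 (u₀, 0), ∑ l ∈ range (L + 1), a l z.1 * z.2 ^ (L - l) ≠ 0 := by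
    refine hG.continuousAt.eventually_ne ?_
    rw [sum_range_succ, sum_eq_zero fun l hl => by
      rw [zero_pow (by have := mem_range.1 hl; omega), mul_zero]]
    simpa using hne
  rw [nhds_prod_eq, eventually_prod_iff] at h1
  obtain ⟨p, hp, q, hq, h1⟩ := h1
  obtain ⟨t, ⟨u, hu, h2⟩, h3, h4⟩ := ((h _ hp).and_eventually
    ((tendsto_inv_atTop_zero.eventually hq).and (eventually_gt_atTop 0))).exists
  refine h1 hu h3 ?_
  rw [← mul_zero (t⁻¹ ^ L), ← h2, mul_sum]
  refine sum_congr rfl fun l hl => ?_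
  obtain ⟨k, rfl⟩ := Nat.exists_eq_add_of_le (Nat.lt_succ_iff.1 (mem_range.1 hl))
  have h5 : t⁻¹ ^ l * t ^ l = 1 := by rw [← mul_pow, inv_mul_cancel₀ h4.ne', one_pow]
  rw [Nat.add_sub_cancel_left, pow_add]
  linear_combination (-(a l u * t⁻¹ ^ k)) * h5

section Uni

open Polynomial

/-- The polynomial with the coefficients `A 0, …, A D`. -/
noncomputable def up (D : ℕ) (A : ℕ → ℝ) : ℝ[X] := ∑ k ∈ range (D + 1), C (A k) * X ^ k

theorem coeff_up (D : ℕ) (A : ℕ → ℝ) (k : ℕ) : (up D A).coeff k = if k ≤ D then A k else 0 := by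
  simp only [up, finsetSum_coeff, coeff_C_mul_X_pow, sum_ite_eq, mem_range, Nat.lt_succ_iff]

theorem natDegree_up (D : ℕ) (A : ℕ → ℝ) : (up D A).natDegree ≤ D :=
  natDegree_le_iff_coeff_eq_zero.2 fun k hk => by rw [coeff_up, if_neg (by omega)]

theorem up_ne_zero {D : ℕ} {A : ℕ → ℝ} (h : ∃ k ≤ D, A k ≠ 0) : up D A ≠ 0 := by
  obtain ⟨k, hk, h⟩ := h
  intro h0
  have := coeff_up D A k
  rw [h0, if_pos hk, coeff_zero] at this
  exact h this.symm

theorem eval_up (D : ℕ) (A : ℕ → ℝ) (j : ℕ) (u : ℝ) : (derivative^[j] (up D A)).eval u =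
    ∑ k ∈ range (D + 1), A k * ((k.descFactorial j : ℕ) * u ^ (k - j)) := by
  simp only [up, iterate_derivative_sum, iterate_derivative_C_mul,
    iterate_derivative_X_pow_eq_C_mul, eval_finsetSum, eval_mul, eval_C, eval_pow, eval_X]

theorem thom_sum {D : ℕ} {A : ℕ → ℝ} (h : ∃ k ≤ D, A k ≠ 0) {θ u : ℝ}
    (hθ : ∑ k ∈ range (D + 1), A k * θ ^ k = 0)
    (hu : ∀ j ≤ D, SignType.sign (∑ k ∈ range (D + 1), A k * ((k.descFactorial j : ℕ) * u ^ (k - j)))
      = SignType.sign (∑ k ∈ range (D + 1), A k * ((k.descFactorial j : ℕ) * θ ^ (k - j)))) :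
    u = θ := by
  by_contra hne
  have h1 : (up D A).eval θ = 0 := by simpa [hθ] using eval_up D A 0 θ
  have h2 : (up D A).eval u = 0 := by
    have := hu 0 (Nat.zero_le _)
    rw [← eval_up, ← eval_up] at this
    simpa [h1] using this
  obtain ⟨k, hk, h3⟩ := thom _ (up_ne_zero h) hne h2 h1
  exact h3 (by rw [eval_up, eval_up]; exact hu k (hk.trans (natDegree_up D A)))

end Uni

end Vale.Agent.N337
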