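import Vale.Agent.N337.Hash
import Vale.Agent.N337.Ana

/-!
Every sign class of a finite family of polynomial functions is described by a short code.
-/

namespace Vale.Agent.N337

open Vale.Agent.Lib.PolyTime Vale.Agent.P337 Finset

variable {α : Type} [Enc α]

/-- The weights of the test number `r`. -/
def wt (m b r j : ℕ) : Prop := r ≤ j ∧ cntw m b (j - r) % 2 = 1

instance (m b r : ℕ) : DecidablePred (wt m b r) := fun _ => inferInstanceAs (Decidable (_ ∧ _))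

theorem cast_ite_two (n : ℕ) : (n : ZMod 2) = if n % 2 = 1 then 1 else 0 := by
  rw [← ZMod.natCast_mod]
  rcases Nat.mod_two_eq_zero_or_one n with h | h <;> simp [h]

theorem sign_code {n J d m : ℕ} (g : ℕ → MvPolynomial (Fin n) ℤ)
    (hg : ∀ j < J, (g j).totalDegree ≤ d)
    (hm : J * (2 * (2 * ((2 * J + 1) * (d + 2)) + 1) ^ n) + J + 1 < 2 ^ m) (x₀ : ℕ → ℝ) :
    ∃ b < 2 ^ (m + 1), ∀ x : ℕ → ℝ, (∀ r < m,
      ∑ j : Fin J, (if wt m b r j then 1 else 0) *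
        (zr (SignType.sign (ev x (g j))) - zr (SignType.sign (ev x₀ (g j)))) = 0 ∧
      ∑ j : Fin J, (if wt m b r j then 1 else 0) *
        (ng (SignType.sign (ev x (g j))) - ng (SignType.sign (ev x₀ (g j)))) = 0) →
      ∀ j < J, SignType.sign (ev x (g j)) = SignType.sign (ev x₀ (g j)) := by
  classical
  have hW := warren (σ := Fin n) (d := d) (fun j : Fin J => MvPolynomial.map (Int.castRingHom ℝ) (g j))
    fun j => (totalDegree_map_le' _ _).trans (hg j j.2)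
  rw [Set.ncard_eq_toFinset_card _ (Set.toFinite _), Fintype.card_fin] at hW
  set T := (Set.toFinite (Set.range fun (x : Fin n → ℝ) (j : Fin J) => SignType.sign
    (MvPolynomial.eval x (MvPolynomial.map (Int.castRingHom ℝ) (g j))))).toFinset
  have hT : ∀ x : ℕ → ℝ, (fun j : Fin J => SignType.sign (ev x (g j))) ∈ T := fun x =>
    (Set.Finite.mem_toFinset _).2 ⟨fun i => x i, funext fun j => by
      dsimp only
      rw [MvPolynomial.eval_map]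
      rfl⟩
  set V := ((T.image fun s (j : Fin J) => zr (s j) - zr (SignType.sign (ev x₀ (g j)))) ∪
    T.image fun s (j : Fin J) => ng (s j) - ng (SignType.sign (ev x₀ (g j)))).filter (· ≠ 0) with hV
  have hc : V.card ≤ 2 * T.card := (card_filter_le _ _).trans ((card_union_le _ _).trans
    ((add_le_add card_image_le card_image_le).trans (two_mul _).ge))
  obtain ⟨h, hd, hh⟩ := exists_hash (m := m) (by rintro rfl; omega) (by omega) V
    (fun δ hδ => (mem_filter.1 hδ).2) (by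
      have := Nat.mul_le_mul_left J (hc.trans (Nat.mul_le_mul_left 2 hW))
      omega)
  obtain ⟨b, hb, hb'⟩ := exists_dig (B := 2) (m + 1) (fun i => (h.coeff i).val)
    fun i _ => ZMod.val_lt _
  have hw : ∀ r j, (if r ≤ j then (h ^ (2 ^ m - 1)).coeff (j - r) else 0) =
      if wt m b r j then 1 else 0 := fun r j => by
    rw [← cast_cntw hd hb', cast_ite_two]
    by_cases h1 : r ≤ j <;> simp [wt, h1]
  simp only [hw] at hh
  refine ⟨b, hb, fun x hx j hj => sign_ext _ _ ?_ ?_⟩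
  · by_contra h1
    obtain ⟨r, hr, h2⟩ := hh _ (mem_filter.2 ⟨mem_union_left _ (mem_image_of_mem _ (hT x)),
      fun h0 => h1 (congrFun h0 ⟨j, hj⟩)⟩)
    exact h2 (hx r hr).1
  · by_contra h1
    obtain ⟨r, hr, h2⟩ := hh _ (mem_filter.2 ⟨mem_union_right _ (mem_image_of_mem _ (hT x)),
      fun h0 => h1 (congrFun h0 ⟨j, hj⟩)⟩)
    exact h2 (hx r hr).2

theorem CHP_wt {m b r j : α → ℕ} (hm : CHF m) (hmb : PBd m) (hb : CHF b) (hr : CHF r)
    (hj : CHF j) : CHP fun a => wt (m a) (b a) (r a) (j a) :=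
  (CHP.le hr hj).and (CHP.eq ((CHF_cntw hm hmb hb (hj.sub hr)).mod (CHF.const 2)) (CHF.const 1))

theorem PF_tp {N J : α → ℕ} (hJ : CHF J) {w : α → ℕ → Prop} [∀ a, DecidablePred (w a)]
    (hw : CHP fun y : α × ℕ => w y.1 y.2) {H : α → ℕ → (ℕ → ℝ) → ℝ}
    (hH : PF (fun x : α × ℕ => N x.1) fun x => H x.1 x.2) :
    PF (fun y : α × ℕ => N y.1) fun y x => (tp (J y.1) (w y.1) fun j => H y.1 j x).coeff y.2 := by
  obtain ⟨G, hG, hG'⟩ := hH
  have hP : MR0 (R := fun a => Polynomial (MvPolynomial (Fin (N a)) ℤ))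
      fun a => tp (J a) (w a) fun j => G (a, j) :=
    MR0_prod (MR0_ite hw (MR.add MR.polyX (MR.polyC hG)) MR.one) hJ
  refine ⟨_, MR.polyCoeff (MR0_comp hP (u := fun y : α × ℕ => y.1) (by fun_prop))
    (k := fun y _ => y.2) (by fun_prop), fun y x => ?_⟩
  dsimp only
  rw [← Polynomial.coeff_map]
  unfold tp
  rw [Polynomial.map_prod]
  congr 1
  refine prod_congr rfl fun j _ => ?_
  split_ifs <;> simp [hG' (y.1, j)]

theorem cls_math {n J d m : ℕ} (g : ℕ → MvPolynomial (Fin n) ℤ)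
    (hg : ∀ j < J, (g j).totalDegree ≤ d)
    (hm : J * (2 * (2 * ((2 * J + 1) * (d + 2)) + 1) ^ n) + J + 1 < 2 ^ m) (x₀ : ℕ → ℝ)
    {H : ℕ → (ℕ → ℝ) → ℝ} (hH : ∀ j w, ev w (g j) = H j w) {dg : ℕ → ℕ → ℕ}
    (hdg : ∀ c i, dg c i = dig (J + 2 ^ (m + 1) + 2) (2 * m + 1) c i)
    {co : ℕ → ℕ → ℕ → (ℕ → ℝ) → ℝ}
    (hco : ∀ c r i w, co c r i w = (tp J (wt m (dg c 0) r) fun j => H j w).coeff i) :
    ∃ c < (J + 2 ^ (m + 1) + 2) ^ (2 * m + 1),
      (∑ r ∈ range m, ∑ i ∈ range (dg c (1 + r)), co c r i x₀ ^ 2 = 0 ∧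
        ∀ r < m, 0 < (-1) ^ dg c (1 + m + r) * co c r (dg c (1 + r)) x₀) ∧
      ∀ x, ∑ r ∈ range m, ∑ i ∈ range (dg c (1 + r)), co c r i x ^ 2 = 0 →
        (∀ r < m, 0 < (-1) ^ dg c (1 + m + r) * co c r (dg c (1 + r)) x) →
        ∀ j < J, SignType.sign (H j x) = SignType.sign (H j x₀) := by
  obtain ⟨b, hb, hb'⟩ := sign_code g hg hm x₀
  choose k hk s hs h1 h2 using fun r => tp_test J (wt m b r) fun j => H j x₀
  obtain ⟨c, hc, hc'⟩ := exists_dig (B := J + 2 ^ (m + 1) + 2) (2 * m + 1)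
    (fun i => if i = 0 then b else if i ≤ m then k (i - 1) else s (i - 1 - m)) fun i _ => by
      have := hk (i - 1)
      have := hs (i - 1 - m)
      split_ifs <;> omega
  have e0 : dg c 0 = b := by rw [hdg, hc' 0 (by omega), if_pos rfl]
  have e1 : ∀ r < m, dg c (1 + r) = k r := fun r hr => by
    rw [hdg, hc' _ (by omega), if_neg (by omega), if_pos (by omega), Nat.add_sub_cancel_left]
  have e2 : ∀ r < m, dg c (1 + m + r) = s r := fun r hr => by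
    rw [hdg, hc' _ (by omega), if_neg (by omega), if_neg (by omega)]
    congr 1
    omega
  simp only [hH] at hb'
  refine ⟨c, hc, ⟨sum_eq_zero fun r hr => sum_eq_zero fun i hi => ?_, fun r hr => ?_⟩,
    fun x h3 h4 => hb' x fun r hr => h2 r (fun j => H j x) (fun i hi => ?_) ?_⟩
  · rw [e1 r (mem_range.1 hr)] at hi
    rw [hco, e0, (h1 r).1 i (mem_range.1 hi), sq, mul_zero]
  · rw [hco, e0, e1 r hr, e2 r hr]
    exact (h1 r).2
  · have h6 := (sum_eq_zero_iff_of_nonneg fun _ _ => sq_nonneg _).1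
      ((sum_eq_zero_iff_of_nonneg fun _ _ => sum_nonneg fun _ _ => sq_nonneg _).1 h3 r
        (mem_range.2 hr)) i (mem_range.2 (by rwa [e1 r hr]))
    rw [hco, e0] at h6
    exact pow_eq_zero_iff two_ne_zero |>.1 h6
  · have h6 := h4 r hr
    rwa [hco, e0, e1 r hr, e2 r hr] at h6

theorem cls {N : α → ℕ} (hN : CHF N) (hNb : PBd N) {S : α → Set ((ℕ → ℝ) → ℝ)} (hS : Fam N S) :
    ∃ Cn m : α → ℕ, CHF Cn ∧ CHF m ∧ PBd m ∧ ∃ (E : α × ℕ → (ℕ → ℝ) → ℝ)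
      (F : α × ℕ → ℕ → (ℕ → ℝ) → ℝ), PF (fun x => N x.1) E ∧
      PF (fun x : (α × ℕ) × ℕ => N x.1.1) (fun x => F x.1 x.2) ∧
      ∀ a x₀, ∃ c < Cn a, (E (a, c) x₀ = 0 ∧ ∀ i < m a, 0 < F (a, c) i x₀) ∧
        ∀ x, E (a, c) x = 0 → (∀ i < m a, 0 < F (a, c) i x) → Same (S a) x x₀ := by
  obtain ⟨J, hJ, H, hH, hS⟩ := hS
  obtain ⟨G, hG, hG'⟩ := id hH
  obtain ⟨d, hd, hd'⟩ := (MR1_of (R := fun a => MvPolynomial (Fin (N a)) ℤ)
    (F := fun a j => G (a, j)) hG hJ).totalDegree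
  obtain ⟨m, hm, hmb, hm'⟩ : ∃ m : α → ℕ, CHF m ∧ PBd m ∧ ∀ a,
      J a * (2 * (2 * ((2 * J a + 1) * (d a + 2)) + 1) ^ N a) + J a + 1 < 2 ^ m a := by
    have h1 : CHF fun a =>
      J a * (2 * (2 * ((2 * J a + 1) * (d a + 2)) + 1) ^ N a) + J a + 1 := by fun_prop
    exact ⟨fun a => Nat.size _, h1.natSize, PBd_size h1, fun a => Nat.lt_size_self _⟩
  obtain ⟨dg, hdg, hdg'⟩ : ∃ dg : α × ℕ → ℕ → ℕ, CHF (fun x : (α × ℕ) × ℕ => dg x.1 x.2) ∧
      ∀ a c i, dg (a, c) i = dig (J a + 2 ^ (m a + 1) + 2) (2 * m a + 1) c i :=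
    ⟨fun x i => dig (J x.1 + 2 ^ (m x.1 + 1) + 2) (2 * m x.1 + 1) x.2 i, by fun_prop,
      fun _ _ _ => rfl⟩
  obtain ⟨co, hco, hco'⟩ : ∃ co : (α × ℕ) × ℕ → ℕ → (ℕ → ℝ) → ℝ,
      PF (fun y : ((α × ℕ) × ℕ) × ℕ => N y.1.1.1) (fun y => co y.1 y.2) ∧ ∀ a c r i w,
        co ((a, c), r) i w = (tp (J a) (wt (m a) (dg (a, c) 0) r) fun j => H a j w).coeff i :=
    ⟨fun y i w => (tp (J y.1.1) (wt (m y.1.1) (dg y.1 0) y.2) fun j => H y.1.1 j w).coeff i,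
      PF_tp (N := fun y : (α × ℕ) × ℕ => N y.1.1) (J := fun y => J y.1.1) (by fun_prop)
      (w := fun y => wt (m y.1.1) (dg y.1 0) y.2) (CHP_wt (by fun_prop) (by fun_prop)
        (hdg.comp (f := fun y : ((α × ℕ) × ℕ) × ℕ => (y.1.1, 0)) (by fun_prop)) (by fun_prop)
        (by fun_prop)) (H := fun y => H y.1.1)
      (hH.comp (u := fun y : ((α × ℕ) × ℕ) × ℕ => (y.1.1.1, y.2)) (by fun_prop)),
      fun _ _ _ _ _ => rfl⟩
  have hk : CHF fun y : (α × ℕ) × ℕ => dg y.1 (1 + y.2) :=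
    hdg.comp (f := fun y : (α × ℕ) × ℕ => (y.1, 1 + y.2)) (by fun_prop)
  have hs : CHF fun y : (α × ℕ) × ℕ => dg y.1 (1 + m y.1.1 + y.2) :=
    hdg.comp (f := fun y : (α × ℕ) × ℕ => (y.1, 1 + m y.1.1 + y.2)) (by fun_prop)
  refine ⟨fun a => (J a + 2 ^ (m a + 1) + 2) ^ (2 * m a + 1), m, by fun_prop, hm, hmb,
    fun x w => ∑ r ∈ range (m x.1), ∑ i ∈ range (dg x (1 + r)), co (x, r) i w ^ 2,
    fun x r w => (-1) ^ dg x (1 + m x.1 + r) * co (x, r) (dg x (1 + r)) w,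
    PF.sum (F := fun x r w => ∑ i ∈ range (dg x (1 + r)), co (x, r) i w ^ 2)
      (PF.sum (F := fun y i w => co y i w ^ 2) hco.sq hk) (by fun_prop),
    (PF.one.neg.pow hs).mul (hco.comp (u := fun y : (α × ℕ) × ℕ => (y, dg y.1 (1 + y.2)))
      (CHF.id.pair hk)), fun a x₀ => ?_⟩
  obtain ⟨c, hc, h1, h2⟩ := cls_math (fun j => G (a, j)) (fun j hj => hd' a j hj) (hm' a) x₀
    (H := H a) (fun j => hG' (a, j)) (hdg' a) (co := fun c r => co ((a, c), r)) (hco' a)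
  refine ⟨c, hc, h1, fun x h3 h4 f hf => ?_⟩
  obtain ⟨j, hj, rfl⟩ := hS a f hf
  exact h2 x h3 h4 j hj

/-- Sign classes inside the zero set of `q` as zero sets of nonnegative polynomials. -/
theorem cls' {N : α → ℕ} (hN : CHF N) (hNb : PBd N) {S : α → Set ((ℕ → ℝ) → ℝ)} (hS : Fam N S)
    {q : α → (ℕ → ℝ) → ℝ} (hq : PF N q) (hq0 : ∀ a w, 0 ≤ q a w) :
    ∃ Cn : α → ℕ, CHF Cn ∧ ∃ M : α × ℕ → ℕ, CHF M ∧ PBd M ∧ (∀ x, N x.1 ≤ M x) ∧
      ∃ q' : α × ℕ → (ℕ → ℝ) → ℝ, PF M q' ∧ (∀ x w, 0 ≤ q' x w) ∧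
      (∀ x w, q' x w = 0 → q x.1 w = 0) ∧
      ∀ a x₀, q a x₀ = 0 → ∃ c < Cn a, (∃ w, (∀ i < N a, w i = x₀ i) ∧ q' (a, c) w = 0) ∧
        ∀ w, q' (a, c) w = 0 → Same (S a) w x₀ := by
  obtain ⟨Cn, m, hCn, hm, hmb, E, F, hE, hF, h⟩ := cls hN hNb hS
  obtain ⟨q', h1, h2, h3, h4⟩ := PF.basic (N := fun x : α × ℕ => N x.1) (by fun_prop)
    (by fun_prop) (hq.comp (u := fun x : α × ℕ => x.1) (by fun_prop)) (fun x => hq0 x.1) hE hF
    (m := fun x => m x.1) (by fun_prop)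
  refine ⟨Cn, hCn, _, by fun_prop, by fun_prop, fun x => Nat.le_add_right _ _, q', h1, h2,
    fun x w hw => (h3 x w hw).1, fun a x₀ h0 => ?_⟩
  obtain ⟨c, hc, h5, h6⟩ := h a x₀
  exact ⟨c, hc, h4 (a, c) x₀ h0 h5.1 h5.2, fun w hw => h6 w (h3 _ w hw).2.1 (h3 _ w hw).2.2⟩

end Vale.Agent.N337
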