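import Vale.Agent.N337.Class
import Mathlib.Algebra.MvPolynomial.Funext

/-!
Sample points whose coordinates are roots of univariate polynomials.
-/

namespace Vale.Agent.N337

open Vale.Agent.Lib.PolyTime Vale.Agent.P337 Finset MvPolynomial Filter Topology

variable {α β : Type} [Enc α] [Enc β]

open Classical in
/-- The coordinates in `p` are taken from `x`, the other ones from `y`. -/
noncomputable def mg (p : ℕ → Prop) (x y : ℕ → ℝ) (i : ℕ) : ℝ := if p i then x i else y i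

theorem mg_congr (p : ℕ → Prop) (x : ℕ → ℝ) {y y' : ℕ → ℝ} {n : ℕ} (h : ∀ i < n, y i = y' i) :
    ∀ i < n, mg p x y i = mg p x y' i := fun i hi => by rw [mg, mg, h i hi]

theorem MR0_cpoly {P : Type} [Enc P] {R : α → Type} [∀ a, CommRing (R a)] [∀ a, PRing P (R a)]
    {n e K : α → ℕ} (hn : CHF n) (hnb : PBd n) (he : CHF e) (hK : CHF K)
    {r : (a : α) → Fin (n a) → MvPolynomial (Fin (n a)) (R a)}
    (hr : MR1 (R := fun a => MvPolynomial (Fin (n a)) (R a)) fun a => P337.ext (r a))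
    {u : β → α} (hu : CHF u) {g : (b : β) → MvPolynomial (Fin (n (u b))) (R (u b))}
    (hg : MR0 (R := fun b => MvPolynomial (Fin (n (u b))) (R (u b))) g) {k : β → ℕ} (hk : CHF k) :
    MR0 (R := fun b => R (u b))
      fun b => (cpoly (e (u b)) (K (u b)) (r (u b)) (g b)).coeff (k b) := by
  simp only [coeff_cpoly, Fintype.card_fin]
  exact MR0_ite (by fun_prop) (MR.mul (MR.neg_one_pow (by fun_prop))
    (MR_EE (n := fun b => n (u b)) (by fun_prop) (by fun_prop) (by fun_prop) (by fun_prop)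
      (MR.comp hr (v := fun _ (i : ℕ) => i) hu (by fun_prop)) hg (by fun_prop))) MR.zero

theorem grid_math {S : Type} [CommRing S] (ψ : S →+* ℝ) {M e L : ℕ} (he : Odd e)
    {Q : MvPolynomial (Fin M) (Polynomial S)} (hQ : Q.totalDegree ≤ e) {f : (ℕ → ℝ) → ℝ}
    (hf : ∀ t η, eval₂Hom (Polynomial.eval₂RingHom ψ t) η Q = f (P337.ext η))
    (hf0 : ∀ w, 0 ≤ f w) (hfd : ∀ y y', (∀ i < M, y i = y' i) → f y = f y')
    (hL : ∀ i < M, ∀ k < e ^ M + 1,
      ((cpoly e (e ^ M) (rr Polynomial.X Q) (XN M _ i)).coeff k).natDegree ≤ L)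
    {φ : (ℕ → ℝ) → Prop} (hd : ∀ y y', (∀ i < M, y i = y' i) → (φ y ↔ φ y'))
    (hφ : ∀ y₀, f y₀ = 0 → ∀ᶠ y in 𝓝 y₀, f y = 0 → (φ y ↔ φ y₀)) {y₀ : ℕ → ℝ} (h0 : f y₀ = 0)
    (h1 : φ y₀) : ∃ y, f y = 0 ∧ φ y ∧ ∀ i < M, ∃ l ≤ e ^ M + L,
      (∃ k ≤ e ^ M + L,
        ψ (((cpoly e (e ^ M) (rr Polynomial.X Q) (XN M _ i)).coeff k).coeff l) ≠ 0) ∧
      ∑ k ∈ range (e ^ M + L + 1),
        ψ (((cpoly e (e ^ M) (rr Polynomial.X Q) (XN M _ i)).coeff k).coeff l) * y i ^ k = 0 := by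
  classical
  set P := map (Polynomial.eval₂RingHom ψ 0) Q with hP
  have hPt : ∀ t η, eval η (map (Polynomial.eval₂RingHom ψ t) Q) = f (P337.ext η) := fun t η => by
    rw [eval_map, ← hf t η, coe_eval₂Hom]
  have hPe : ∀ t, map (Polynomial.eval₂RingHom ψ t) Q = P := fun t =>
    MvPolynomial.funext fun η => (hPt t η).trans (hPt 0 η).symm
  have hext : Continuous (P337.ext : (Fin M → ℝ) → ℕ → ℝ) := continuous_pi fun i => by
    unfold P337.ext
    split_ifs <;> fun_prop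
  have hres : ∀ i < M, P337.ext (fun i : Fin M => y₀ i) i = y₀ i := fun i hi =>
    ext_val (fun i : Fin M => y₀ i) ⟨i, hi⟩
  obtain ⟨η, h2, h3, h4⟩ := sample he (P := P) (fun η => (hPt 0 η).symm ▸ hf0 _)
    (φ := fun η => φ (P337.ext η)) (fun η hη => by
      simp only [hP, hPt] at hη ⊢
      exact hext.continuousAt.eventually (hφ _ hη)) (y₀ := fun i => y₀ i)
    (by rw [hPt, hfd _ _ hres, h0]) ((hd _ _ hres).2 h1)
  refine ⟨_, (hPt 0 η).symm.trans h2, h3, fun i hi => ?_⟩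
  set χ := cpoly e (e ^ M) (rr Polynomial.X Q) (XN M (Polynomial S) i) with hχ
  have hroot := fun t => cpoly_root (Polynomial.eval₂RingHom ψ t) he.pos (K := e ^ M)
    (dg_rr he.pos (dg_iff.2 hQ) Polynomial.X) (g := XN M (Polynomial S) i) (by
      rw [Fintype.card_fin]
      simpa using Nat.mul_le_mul_left (e ^ M) (dg_iff.1 (dg_XN M (Polynomial S) i)))
  simp only [Fintype.card_fin, ← hχ] at hroot
  have hχd : χ.natDegree ≤ e ^ M := (natDegree_cpoly _ _ _ _).trans (by rw [Fintype.card_fin])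
  have hdeg : ∀ k, (χ.coeff k).natDegree ≤ L := fun k => by
    by_cases hk : k < e ^ M + 1
    · exact hL i hi k hk
    · rw [Polynomial.coeff_eq_zero_of_natDegree_lt (by omega)]
      simp
  obtain ⟨l₀, hl₀, hl₀'⟩ : ∃ l ≤ e ^ M + L, ∃ k ≤ e ^ M + L, ψ ((χ.coeff k).coeff l) ≠ 0 := by
    by_contra! h5
    have h6 := (hroot 0).1
    rw [Polynomial.coe_eval₂RingHom, Polynomial.eval₂_at_zero, h5 0 (by omega) _ (by omega)] at h6
    exact (QQ_pos _).ne (by exact_mod_cast h6)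
  set l := Nat.findGreatest (fun l => ∃ k ≤ e ^ M + L, ψ ((χ.coeff k).coeff l) ≠ 0) (e ^ M + L)
  have hl : ∀ k ≤ e ^ M + L, ((χ.coeff k).map ψ).natDegree ≤ l := fun k hk =>
    Polynomial.natDegree_le_iff_coeff_eq_zero.2 fun j hj => by
      rw [Polynomial.coeff_map]
      by_cases h5 : j ≤ e ^ M + L
      · by_contra h6
        exact Nat.findGreatest_is_greatest hj h5 ⟨k, hk, h6⟩
      · rw [Polynomial.coeff_eq_zero_of_natDegree_lt (by have := hdeg k; omega), map_zero]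
  refine ⟨l, Nat.findGreatest_le _, Nat.findGreatest_spec
    (P := fun l => ∃ k ≤ e ^ M + L, ψ ((χ.coeff k).coeff l) ≠ 0) hl₀ hl₀', ?_⟩
  rw [show P337.ext η i = η ⟨i, hi⟩ from ext_val η ⟨i, hi⟩]
  refine top_zero l (a := fun l u => ∑ k ∈ range (e ^ M + L + 1), ψ ((χ.coeff k).coeff l) * u ^ k)
    (fun l => continuous_finsetSum _ fun k _ => continuous_const.mul (continuous_pow _))
    fun U hU => (h4 _ ((continuous_apply (⟨i, hi⟩ : Fin M)).continuousAt hU)).mono ?_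
  rintro t ⟨z, hz, h5⟩
  refine ⟨z ⟨i, hi⟩, hz, ?_⟩
  have h6 := (hroot t).2 z fun j => by
    rw [coe_eval₂Hom, ← eval_map, map_sys]
    simpa only [map_rr, hPe, Polynomial.coe_eval₂RingHom, Polynomial.eval₂_X] using h5 j
  rw [← Polynomial.eval₂_eq_sum_range' _ (Nat.lt_succ_of_le hχd),
    Polynomial.eval₂_eq_sum_range' _ (n := e ^ M + L + 1) (by omega), XN, dif_pos hi,
    eval₂Hom_X'] at h6
  rw [← h6]
  simp only [sum_mul]
  rw [sum_comm]
  refine sum_congr rfl fun k hk => ?_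
  rw [Polynomial.coe_eval₂RingHom, ← Polynomial.eval_map, Polynomial.eval_eq_sum_range'
    (Nat.lt_succ_of_le (hl k (Nat.lt_succ_iff.1 (mem_range.1 hk)))), sum_mul]
  exact sum_congr rfl fun j _ => by rw [Polynomial.coeff_map]; ring

theorem grid {N M : α → ℕ} (hN : CHF N) (hM : CHF M) (hMb : PBd M) {p : α → ℕ → Prop}
    (hp : CHP fun x : α × ℕ => p x.1 x.2) (hpN : ∀ a i, p a i → i < N a)
    {q : α → (ℕ → ℝ) → ℝ} (hq : PF M q) (hq0 : ∀ a w, 0 ≤ q a w) :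
    ∃ D : α → ℕ, CHF D ∧ ∃ A : α → ℕ → ℕ → ℕ → (ℕ → ℝ) → ℝ,
      PF (fun x : ((α × ℕ) × ℕ) × ℕ => N x.1.1.1) (fun x => A x.1.1.1 x.1.1.2 x.1.2 x.2) ∧
      ∀ a x (φ : (ℕ → ℝ) → Prop), (∀ y y', (∀ i < M a, y i = y' i) → (φ y ↔ φ y')) →
        (∀ y₀, q a (mg (p a) x y₀) = 0 →
          ∀ᶠ y in 𝓝 y₀, q a (mg (p a) x y) = 0 → (φ y ↔ φ y₀)) →
        ∀ y₀, q a (mg (p a) x y₀) = 0 → φ y₀ → ∃ y, q a (mg (p a) x y) = 0 ∧ φ y ∧
          ∀ i < M a, ∃ l ≤ D a, (∃ k ≤ D a, A a i l k x ≠ 0) ∧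
            ∑ k ∈ range (D a + 1), A a i l k x * y i ^ k = 0 := by
  classical
  obtain ⟨Q, hQ, hQ'⟩ := id hq
  obtain ⟨s, hs, hs'⟩ := hQ.totalDegree
  obtain ⟨T, hT, hT'⟩ : ∃ T : (a : α) →
      MvPolynomial (Fin (M a)) (Polynomial (MvPolynomial (Fin (N a)) ℤ)),
      MR0 (R := fun a => MvPolynomial (Fin (M a)) (Polynomial (MvPolynomial (Fin (N a)) ℤ))) T ∧
      ∀ a x t η, eval₂Hom (Polynomial.eval₂RingHom (ev x) t) η (T a) =
        q a (mg (p a) x (P337.ext η)) := by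
    refine ⟨fun a => hsub (s a) 1 (fun i => if p a i then C (Polynomial.C (XN (N a) ℤ i))
      else XN (M a) _ i) (Q a), MR0_hsub hM hMb hs MR.one (MR0_ite hp (MR.mvC (MR.polyC
        (MR0_XN (R := fun _ => ℤ) (by fun_prop) (by fun_prop))))
        (MR0_XN (by fun_prop) (by fun_prop))) hQ, fun a x t η => ?_⟩
    refine (map_hsub (R := MvPolynomial (Fin (M a)) (Polynomial (MvPolynomial (Fin (N a)) ℤ)))
      (eval₂Hom (Polynomial.eval₂RingHom (ev x) t) η) (hs' a () trivial) (v := mg (p a) x (P337.ext η)) fun i hi => ?_).trans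
      (by rw [map_one, one_pow, one_mul, hQ'])
    rw [map_one, one_mul, mg]
    split_ifs with h
    · rw [eval₂Hom_C, Polynomial.coe_eval₂RingHom, Polynomial.eval₂_C, ev_XN (hpN a i h)]
    · rw [XN, dif_pos hi, eval₂Hom_X', P337.ext, dif_pos hi]
  obtain ⟨s', hs1, hs1'⟩ := hT.totalDegree
  obtain ⟨e, he, heo, hes⟩ : ∃ e : α → ℕ, CHF e ∧ (∀ a, Odd (e a)) ∧ ∀ a, s' a ≤ e a :=
    ⟨fun a => 2 * s' a + 1, by fun_prop, fun a => odd_two_mul_add_one _, fun a => by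
      dsimp only
      omega⟩
  have hD : CHF fun a => e a ^ M a := by fun_prop
  have hc := MR0_cpoly hM hMb he hD (MR_rr hM hMb MR.polyX hT)
    (u := fun y : (α × ℕ) × ℕ => y.1.1) (by fun_prop) (g := fun y => XN (M y.1.1) _ y.1.2)
    (MR0_XN (by fun_prop) (by fun_prop)) (k := fun y => y.2) (by fun_prop)
  obtain ⟨L₁, hL₁, hL₁'⟩ := (MR1_of (R := fun y : α × ℕ => Polynomial (MvPolynomial (Fin (N y.1)) ℤ))
    (F := fun y k => (cpoly (e y.1) (e y.1 ^ M y.1) (rr Polynomial.X (T y.1))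
      (XN (M y.1) _ y.2)).coeff k) hc (m := fun y => e y.1 ^ M y.1 + 1) (by fun_prop)).natDegree
  obtain ⟨L, hL, hL'⟩ := CHF.exists_bound (f := fun a i => L₁ (a, i)) hL₁ hM
  refine ⟨fun a => e a ^ M a + L a, by fun_prop, fun a i l k x => ev x
    (((cpoly (e a) (e a ^ M a) (rr Polynomial.X (T a)) (XN (M a) _ i)).coeff k).coeff l),
    ⟨_, MR.polyCoeff (MR0_comp hc (u := fun y : ((α × ℕ) × ℕ) × ℕ => (y.1.1, y.2)) (by fun_prop))
      (k := fun y _ => y.1.2) (by fun_prop), fun _ _ => rfl⟩, fun a x φ h1 h2 y₀ h3 h4 => ?_⟩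
  exact grid_math (ev x) (heo a) ((hs1' a () trivial).trans (hes a))
    (f := fun y => q a (mg (p a) x y)) (hT' a x) (fun _ => hq0 a _)
    (fun y y' h => hq.dep a (mg_congr _ _ h))
    (fun i hi k hk => (hL₁' (a, i) k hk).trans (hL' a i hi)) h1 h2 h3 h4

end Vale.Agent.N337
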