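import Vale.Agent.N337.PF
import Mathlib.FieldTheory.Finite.GaloisField

/-!
Few linear tests over the field with two elements separate many vectors; the tests are linear
recurring sequences. Signs of real numbers are tested by the lowest coefficient of a product.
-/

namespace Vale.Agent.N337

open Vale.Agent.Lib.PolyTime Vale.Agent.P337 Finset Polynomial

theorem expand_two_pow (h : (ZMod 2)[X]) (l : ℕ) : expand (ZMod 2) (2 ^ l) h = h ^ 2 ^ l := by
  induction l with
  | zero => simp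
  | succ l ih => rw [pow_succ', expand_mul, ih, ZMod.expand_card, ← pow_mul, mul_comm]

theorem exists_hash_aux (K : Type) [Field K] [Fintype K] [Algebra (ZMod 2) K] {m J : ℕ}
    (hK : Fintype.card K = 2 ^ m) (hf : Module.finrank (ZMod 2) K = m)
    (hJ : J ≤ 2 ^ m) (V : Finset (Fin J → ZMod 2))
    (hV : ∀ δ ∈ V, δ ≠ 0) (hc : J * V.card + 1 < 2 ^ m) :
    ∃ h : (ZMod 2)[X], h.natDegree ≤ m ∧ ∀ δ ∈ V, ∃ r < m,
      ∑ j : Fin J, (if r ≤ j then (h ^ (2 ^ m - 1)).coeff (j - r) else 0) * δ j ≠ 0 := by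
  classical
  set ι := algebraMap (ZMod 2) K with hι
  set p : (Fin J → ZMod 2) → K[X] := fun δ => ∑ j, Polynomial.C (ι (δ j)) * X ^ (j : ℕ) with hp
  have hp0 : ∀ δ ∈ V, p δ ≠ 0 := fun δ hδ h0 => hV δ hδ (funext fun j => by
    have h1 := congrArg (coeff · j) h0
    simp only [hp, finsetSum_coeff, coeff_C_mul_X_pow, Fin.val_inj, sum_ite_eq, mem_univ,
      if_true, coeff_zero] at h1
    exact ι.injective (h1.trans (map_zero ι).symm))
  have hpd : ∀ δ, (p δ).natDegree ≤ J := fun δ => natDegree_sum_le_of_forall_le _ _ fun j _ =>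
    (natDegree_C_mul_X_pow_le _ _).trans j.2.le
  obtain ⟨x, hx⟩ : ∃ x, (X * ∏ δ ∈ V, p δ).eval x ≠ 0 := by
    by_contra! h1
    refine mul_ne_zero X_ne_zero (prod_ne_zero_iff.2 hp0)
      (eq_zero_of_natDegree_lt_card_of_eval_eq_zero _ Function.injective_id h1 ?_)
    rw [hK]
    refine lt_of_le_of_lt (natDegree_mul_le.trans ?_) hc
    have h2 := (natDegree_prod_le V p).trans (sum_le_card_nsmul _ _ _ fun δ _ => hpd δ)
    rw [smul_eq_mul, mul_comm] at h2
    rw [natDegree_X]
    omega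
  rw [eval_mul, eval_X, eval_prod, mul_ne_zero_iff, prod_ne_zero_iff] at hx
  have hy : IsIntegral (ZMod 2) x⁻¹ := IsIntegral.of_finite _ _
  set h := minpoly (ZMod 2) x⁻¹ with hh
  have hd : h.natDegree ≤ m := (minpoly.natDegree_le _).trans hf.le
  have h0 : h.coeff 0 = 1 := by
    have h1 := minpoly.coeff_zero_ne_zero hy (inv_ne_zero hx.1)
    rw [← hh] at h1
    generalize h.coeff 0 = z at h1
    revert z
    decide
  obtain ⟨H, hH⟩ : X - Polynomial.C x⁻¹ ∣ h.map ι :=
    dvd_iff_isRoot.2 (by rw [IsRoot, eval_map_algebraMap]; exact minpoly.aeval _ _)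
  have hHd : H.natDegree < m := by
    have h1 : h.map ι ≠ 0 := ((minpoly.monic hy).map ι).ne_zero
    have h2 := natDegree_mul (X_sub_C_ne_zero x⁻¹) (right_ne_zero_of_mul (hH ▸ h1))
    rw [← hH, natDegree_X_sub_C, natDegree_map] at h2
    omega
  set R := h ^ (2 ^ m - 1) with hR
  have hRh : R * h = 1 + X ^ 2 ^ m * expand (ZMod 2) (2 ^ m) h.divX := by
    rw [hR, ← pow_succ, Nat.sub_add_cancel Nat.one_le_two_pow, ← expand_two_pow]
    conv_lhs => rw [← X_mul_divX_add h]
    rw [map_add, map_mul, expand_X, expand_C, h0, map_one, add_comm]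
  set G : K[X] := ∑ k ∈ range J, (Polynomial.C x * X) ^ k with hG
  have key : ∀ k < J, x ^ k = -x⁻¹ * ∑ r ∈ range m,
      H.coeff r * ι (if r ≤ k then R.coeff (k - r) else 0) := fun k hk => by
    have h1 : G.coeff k = x ^ k := by
      simp only [hG, mul_pow, ← C_pow, finsetSum_coeff, coeff_C_mul_X_pow, sum_ite_eq, mem_range,
        if_pos hk]
    have h2 : (X - Polynomial.C x⁻¹) * G =
        Polynomial.C x⁻¹ * (X ^ J * Polynomial.C (x ^ J) - 1) := by
      have h3 : Polynomial.C x⁻¹ * Polynomial.C x = (1 : K[X]) := by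
        rw [← C_mul, inv_mul_cancel₀ hx.1, C_1]
      have h4 := geom_sum_mul (Polynomial.C x * X : K[X]) J
      rw [mul_pow, ← C_pow, ← hG] at h4
      linear_combination Polynomial.C x⁻¹ * h4 - X * G * h3
    have h3 : G + X ^ 2 ^ m * ((expand (ZMod 2) (2 ^ m) h.divX).map ι * G) =
        X ^ J * (Polynomial.C x⁻¹ * Polynomial.C (x ^ J) * (H * R.map ι)) -
          Polynomial.C x⁻¹ * (H * R.map ι) := by
      have h4 := congrArg (Polynomial.map ι) hRh
      rw [Polynomial.map_mul, Polynomial.map_add, Polynomial.map_mul, Polynomial.map_pow (p := X), map_X,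
        Polynomial.map_one, hH] at h4
      linear_combination (H * R.map ι) * h2 - G * h4
    have h4 := congrArg (coeff · k) h3
    simp only [coeff_add, coeff_sub, coeff_X_pow_mul', if_neg (not_le.2 hk),
      if_neg (not_le.2 (hk.trans_le hJ)), h1, coeff_C_mul, add_zero, zero_sub] at h4
    rw [h4, neg_mul]
    congr 2
    conv_lhs => rw [as_sum_range_C_mul_X_pow' H hHd]
    rw [sum_mul, finsetSum_coeff]
    refine sum_congr rfl fun r _ => ?_
    rw [mul_assoc, coeff_C_mul, coeff_X_pow_mul', coeff_map, apply_ite ι, map_zero]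
  refine ⟨h, hd, fun δ hδ => ?_⟩
  by_contra! h1
  refine hx.2 δ hδ ?_
  have h2 : (p δ).eval x = -x⁻¹ * ∑ r ∈ range m, H.coeff r *
      ι (∑ j : Fin J, (if r ≤ j then R.coeff (j - r) else 0) * δ j) := by
    simp only [hp, eval_finsetSum, eval_mul, eval_C, eval_pow, eval_X, key _ (Fin.is_lt _),
      map_sum, map_mul, Finset.mul_sum]
    rw [sum_comm]
    exact sum_congr rfl fun r _ => sum_congr rfl fun j _ => by ring
  rw [h2, sum_eq_zero fun r hr => by rw [h1 r (mem_range.1 hr), map_zero, mul_zero], mul_zero]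

theorem exists_hash {m J : ℕ} (hm : m ≠ 0) (hJ : J ≤ 2 ^ m) (V : Finset (Fin J → ZMod 2))
    (hV : ∀ δ ∈ V, δ ≠ 0) (hc : J * V.card + 1 < 2 ^ m) :
    ∃ h : (ZMod 2)[X], h.natDegree ≤ m ∧ ∀ δ ∈ V, ∃ r < m,
      ∑ j : Fin J, (if r ≤ j then (h ^ (2 ^ m - 1)).coeff (j - r) else 0) * δ j ≠ 0 :=
  have := Fintype.ofFinite (GaloisField 2 m)
  exists_hash_aux (GaloisField 2 m) (by rw [← Nat.card_eq_fintype_card, GaloisField.card 2 m hm])
    (GaloisField.finrank 2 hm) hJ V hV hc

/-- A number whose parity is a coefficient of `h ^ (2 ^ m - 1)`, where `h` has the bits of `b`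
as coefficients. -/
def cntw (m b k : ℕ) : ℕ := ∑ s ∈ range ((m + 1) ^ m),
  if ∑ l ∈ range m, dig (m + 1) m s l * 2 ^ min l m = k ∧
    ¬ ∃ l, l < m ∧ dig 2 (m + 1) b (dig (m + 1) m s l) = 0 then 1 else 0

theorem CHF_cntw {α : Type} [Enc α] {m b k : α → ℕ} (hm : CHF m) (hmb : PBd m) (hb : CHF b)
    (hk : CHF k) : CHF fun a => cntw (m a) (b a) (k a) := by
  unfold cntw
  fun_prop

theorem cast_cntw {m b : ℕ} {h : (ZMod 2)[X]} (hd : h.natDegree ≤ m)
    (hb : ∀ i < m + 1, dig 2 (m + 1) b i = (h.coeff i).val) (k : ℕ) :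
    (cntw m b k : ZMod 2) = (h ^ (2 ^ m - 1)).coeff k := by
  classical
  have h1 : ∀ n, h ^ (2 ^ n - 1) = ∏ l ∈ range n, h ^ 2 ^ l := fun n => by
    induction n with
    | zero => simp
    | succ n ih =>
      rw [prod_range_succ, ← ih, ← pow_add]
      congr 1
      have := Nat.one_le_two_pow (n := n)
      omega
  have h2 : ∀ l : ℕ, h ^ 2 ^ l =
      ∑ i : Fin (m + 1), Polynomial.C (h.coeff i) * X ^ ((i : ℕ) * 2 ^ l) := fun l => by
      rw [← expand_two_pow]
      conv_lhs => rw [as_sum_range_C_mul_X_pow' h (Nat.lt_succ_of_le hd), sum_range]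
      simp only [map_sum, map_mul, map_pow, expand_C, expand_X, ← pow_mul, mul_comm]
  rw [h1, prod_range]
  simp only [h2]
  rw [prod_univ_sum, Fintype.piFinset_univ, finsetSum_coeff]
  simp only [prod_mul_distrib, prod_pow_eq_pow_sum, ← map_prod, coeff_C_mul_X_pow]
  rw [← sum_dig (m + 1) m fun t => if k = ∑ l : Fin m, t l * 2 ^ (l : ℕ) then
    ∏ l : Fin m, h.coeff (t l) else 0, cntw, Nat.cast_sum]
  refine sum_congr rfl fun s _ => ?_
  have h3 : ∑ l ∈ range m, dig (m + 1) m s l * 2 ^ min l m =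
      ∑ l : Fin m, dig (m + 1) m s l * 2 ^ (l : ℕ) := by
    rw [sum_range]
    exact sum_congr rfl fun l _ => by rw [min_eq_left l.2.le]
  have h4 : ∀ z : ZMod 2, z.val ≠ 0 → z = 1 := by decide
  simp only [h3, hb _ (dig_lt (Nat.succ_pos m) _ _ _), eq_comm (a := k)]
  by_cases h5 : ∃ l, l < m ∧ (h.coeff (dig (m + 1) m s l)).val = 0
  · obtain ⟨l, hl, h6⟩ := id h5
    rw [if_neg fun h7 => h7.2 h5, prod_eq_zero (mem_univ (⟨l, hl⟩ : Fin m))
      ((ZMod.val_eq_zero _).1 h6)]
    simp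
  · rw [Finset.prod_eq_one fun (l : Fin m) _ => h4 _ fun h6 => h5 ⟨l, l.2, h6⟩]
    simp only [h5, not_false_eq_true, and_true, Nat.cast_ite, Nat.cast_one, Nat.cast_zero]

/-- The indicator of the sign zero. -/
def zr (s : SignType) : ZMod 2 := if s = 0 then 1 else 0

/-- The indicator of the negative sign. -/
def ng (s : SignType) : ZMod 2 := if s = -1 then 1 else 0

theorem sign_ext : ∀ s t : SignType, zr s - zr t = 0 → ng s - ng t = 0 → s = t := by decide

theorem ng_mul : ∀ s t : SignType, s ≠ 0 → t ≠ 0 → ng (s * t) = ng s + ng t := by decide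

theorem ng_prod (s : Finset ℕ) {v : ℕ → ℝ} (hv : ∀ j ∈ s, v j ≠ 0) :
    ng (SignType.sign (∏ j ∈ s, v j)) = ∑ j ∈ s, ng (SignType.sign (v j)) := by
  induction s using Finset.induction_on with
  | empty => simp [ng]
  | insert j s hj ih =>
    have h1 := fun i hi => hv i (mem_insert_of_mem hi)
    rw [prod_insert hj, sum_insert hj, sign_mul, ng_mul _ _
      (sign_ne_zero.2 (hv j (mem_insert_self _ _))) (sign_ne_zero.2 (prod_ne_zero_iff.2 h1)), ih h1]

section Test

variable (J : ℕ) (w : ℕ → Prop) [DecidablePred w]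

/-- The test polynomial. -/
noncomputable def tp {R : Type*} [CommRing R] (v : ℕ → R) : R[X] :=
  ∏ j ∈ range J, if w j then X + Polynomial.C (v j) else 1

theorem tp_low (v : ℕ → ℝ) : ∃ k ≤ J, (∀ i < k, (tp J w v).coeff i = 0) ∧
    (tp J w v).coeff k ≠ 0 ∧
    (k : ZMod 2) = ∑ j : Fin J, (if w j then 1 else 0) * zr (SignType.sign (v j)) ∧
    ng (SignType.sign ((tp J w v).coeff k)) =
      ∑ j : Fin J, (if w j then 1 else 0) * ng (SignType.sign (v j)) := by
  classical
  set k := ((range J).filter fun j => w j ∧ v j = 0).card with hk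
  have h1 : tp J w v =
      X ^ k * ∏ j ∈ range J, if w j ∧ v j ≠ 0 then X + Polynomial.C (v j) else 1 := by
    rw [hk, ← prod_const, prod_filter, ← prod_mul_distrib]
    refine prod_congr rfl fun j _ => ?_
    by_cases h : w j <;> by_cases h' : v j = 0 <;> simp [h, h']
  have h2 : (tp J w v).coeff k = ∏ j ∈ range J, if w j ∧ v j ≠ 0 then v j else 1 := by
    rw [h1, coeff_X_pow_mul', if_pos le_rfl, Nat.sub_self, coeff_zero_eq_eval_zero, eval_prod]
    exact prod_congr rfl fun j _ => by split_ifs <;> simp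
  have h3 : ∀ j ∈ range J, (if w j ∧ v j ≠ 0 then v j else 1) ≠ 0 := fun j _ => by
    split_ifs with h
    · exact h.2
    · exact one_ne_zero
  refine ⟨k, (card_filter_le _ _).trans (card_range J).le,
    fun i hi => by rw [h1, coeff_X_pow_mul', if_neg (not_le.2 hi)],
    h2 ▸ prod_ne_zero_iff.2 h3, ?_, ?_⟩
  · rw [hk, card_filter, Nat.cast_sum, sum_range]
    refine sum_congr rfl fun j _ => ?_
    by_cases h : w j <;> by_cases h' : v j = 0 <;> simp [h, h', zr]
  · rw [h2, ng_prod _ h3, sum_range]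
    refine sum_congr rfl fun j _ => ?_
    by_cases h : w j <;> by_cases h' : v j = 0 <;> simp [h, h', ng]

theorem tp_test (v₀ : ℕ → ℝ) : ∃ k ≤ J, ∃ s < 2, ((∀ i < k, (tp J w v₀).coeff i = 0) ∧
    0 < (-1) ^ s * (tp J w v₀).coeff k) ∧ ∀ v : ℕ → ℝ, (∀ i < k, (tp J w v).coeff i = 0) →
      0 < (-1) ^ s * (tp J w v).coeff k →
      ∑ j : Fin J, (if w j then 1 else 0) *
        (zr (SignType.sign (v j)) - zr (SignType.sign (v₀ j))) = 0 ∧
      ∑ j : Fin J, (if w j then 1 else 0) *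
        (ng (SignType.sign (v j)) - ng (SignType.sign (v₀ j))) = 0 := by
  obtain ⟨k, hk, h1, h2, h3, h4⟩ := tp_low J w v₀
  obtain ⟨s, hs, h5⟩ : ∃ s < 2, 0 < (-1) ^ s * (tp J w v₀).coeff k := by
    rcases lt_or_gt_of_ne h2 with h | h
    · exact ⟨1, by omega, by simpa using h⟩
    · exact ⟨0, by omega, by simpa using h⟩
  refine ⟨k, hk, s, hs, ⟨h1, h5⟩, fun v h6 h7 => ?_⟩
  obtain ⟨k', -, h8, h9, h10, h11⟩ := tp_low J w v
  obtain rfl : k' = k := le_antisymm (not_lt.1 fun h => by simp [h8 k h] at h7)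
    (not_lt.1 fun h => h9 (h6 k' h))
  have h12 : SignType.sign ((tp J w v).coeff k') = SignType.sign ((tp J w v₀).coeff k') := by
    rcases neg_one_pow_eq_or ℝ s with h | h <;> rw [h] at h5 h7
    · rw [sign_pos (by linarith), sign_pos (by linarith)]
    · rw [sign_neg (by linarith), sign_neg (by linarith)]
  simp only [mul_sub, sum_sub_distrib]
  rw [← h3, ← h4, ← h10, ← h11, h12]
  simp

end Test

end Vale.Agent.N337
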