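import Vale.Agent.P337.CH.CoreCH

/-!
Families of polynomial functions on `ℕ → ℝ` given by `MR` families of integer polynomials (`PF`),
finite families of such functions (`Fam`), substitution.
-/

namespace Vale.Agent.N337

open Vale.Agent.Lib.PolyTime Vale.Agent.P337 Finset MvPolynomial

variable {α β : Type} [Enc α] [Enc β]

section MR

variable {P : Type} [Enc P] {R : α → Type} [∀ a, CommRing (R a)] [∀ a, PRing P (R a)]

theorem MC_uncurry {γ : Type} [Enc γ] {f : α → ℕ → γ → ℤ}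
    (hf : MC (fun (_ : α × ℕ) (_ : γ) => True) (fun x c => f x.1 x.2 c)) {m : α → ℕ}
    (hm : CHF m) : MC (fun a (y : ℕ × γ) => y.1 < m a) (fun a y => f a y.1 y.2) := by
  obtain ⟨⟨T, hT, h1⟩, ⟨e, he, h2⟩⟩ := hf
  obtain ⟨V, hV, hV'⟩ := CHF.exists_bound (f := fun a s => T (a, s)) hT hm
  refine ⟨⟨V, hV, (h1.comp (u := fun y : (α × ℕ × γ) × ℕ => (((y.1.1, y.1.2.1), y.1.2.2), y.2))
    (by fun_prop)).congr fun y hy _ => ⟨⟨trivial, (hV' _ _ hy.1).trans_lt hy.2⟩, rfl⟩⟩,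
    ⟨fun x => e ((x.1, x.2.1), x.2.2), by fun_prop, fun a b _ => h2 (a, b.1) b.2 trivial⟩⟩

theorem MR_uncurry {F : (a : α) → ℕ → R a}
    (hF : MR0 (R := fun x : α × ℕ => R x.1) (fun x => F x.1 x.2)) {m : α → ℕ} (hm : CHF m) :
    MR (fun a (x : Unit × ℕ) => True ∧ x.2 < m a) (fun a x => F a x.2) := by
  obtain ⟨h1, M, hM, h2⟩ := hF
  obtain ⟨V, hV, hV'⟩ := CHF.exists_bound (f := fun a s => M (a, s)) hM hm
  refine ⟨((MC_uncurry (f := fun a s (c : Unit × P) => PRing.ev c.2 (F a s)) h1 hm).comp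
    (u := fun a => a) (v := fun _ (x : (Unit × ℕ) × P) => (x.1.2, ((), x.2))) CHF.id
    (by fun_prop)).mono fun a x hx => hx.2, V, hV, fun a b hb =>
      PRing.dg_mono (hV' a _ hb.2) (h2 (a, b.2) () trivial)⟩

theorem MR1_of {F : (a : α) → ℕ → R a}
    (hF : MR0 (R := fun x : α × ℕ => R x.1) (fun x => F x.1 x.2)) {m : α → ℕ} (hm : CHF m) :
    MR (fun a (i : ℕ) => i < m a) F :=
  (MR_uncurry hF hm).reindex (fun _ (i : ℕ) => ((), i)) (by fun_prop) fun _ _ h => ⟨trivial, h⟩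

theorem MR0_comp {F : (a : α) → R a} (hF : MR0 F) {u : β → α} (hu : CHF u) :
    MR0 (R := fun b => R (u b)) (fun b => F (u b)) :=
  MR.comp hF (v := fun _ (_ : Unit) => ()) hu (by fun_prop)

theorem MR0_sum {F : (a : α) → ℕ → R a}
    (hF : MR0 (R := fun x : α × ℕ => R x.1) (fun x => F x.1 x.2)) {m : α → ℕ} (hm : CHF m) :
    MR0 (fun a => ∑ s ∈ range (m a), F a s) :=
  MR.sum_range (m := fun a _ => m a) (by fun_prop) (H := fun a _ s => F a s) (MR_uncurry hF hm)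

theorem MR0_prod {F : (a : α) → ℕ → R a}
    (hF : MR0 (R := fun x : α × ℕ => R x.1) (fun x => F x.1 x.2)) {m : α → ℕ} (hm : CHF m) :
    MR0 (fun a => ∏ s ∈ range (m a), F a s) :=
  MR.prod_range (m := fun a _ => m a) (by fun_prop) (EB.of_chf hm) (H := fun a _ s => F a s)
    (MR_uncurry hF hm)

theorem MR0_ite {q : α → Prop} {inst : ∀ a, Decidable (q a)} (hq : CHP q) {F G : (a : α) → R a}
    (hF : MR0 F) (hG : MR0 G) : MR0 (fun a => @ite _ (q a) (inst a) (F a) (G a)) :=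
  MR.ite (q := fun a _ => q a) (inst := fun a _ => inst a) (by fun_prop) hF.inst hG.inst

theorem MR0_XN {n i : α → ℕ} (hn : CHF n) (hi : CHF i) :
    MR0 (R := fun a => MvPolynomial (Fin (n a)) (R a)) (fun a => XN (n a) (R a) (i a)) :=
  (MR_XN hn).at (i := fun a _ => i a) (by fun_prop)

end MR

/-- The digit number `i` of `s` in base `B`. -/
def dig (B n s i : ℕ) : ℕ := s / B ^ min i n % B

@[fun_prop]
theorem CHF_dig {B n s i : α → ℕ} (hB : CHF B) (hn : CHF n) (hnb : PBd n) (hs : CHF s)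
    (hi : CHF i) : CHF fun a => dig (B a) (n a) (s a) (i a) := by
  unfold dig
  fun_prop

theorem dig_lt {B : ℕ} (hB : 0 < B) (n s i : ℕ) : dig B n s i < B := Nat.mod_lt _ hB

theorem exists_dig {B : ℕ} (n : ℕ) (f : ℕ → ℕ) (hf : ∀ i < n, f i < B) :
    ∃ s < B ^ n, ∀ i < n, dig B n s i = f i := by
  rcases Nat.eq_zero_or_pos n with rfl | hn
  · exact ⟨0, by simp, by simp⟩
  obtain ⟨s, hs, h⟩ := exists_digits B n (fun i => if i < n then f i else 0) fun i => by
    split_ifs with h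
    · exact hf i h
    · exact (Nat.zero_le _).trans_lt (hf 0 hn)
  exact ⟨s, hs, fun i hi => by rw [dig, min_eq_left hi.le, h i hi, if_pos hi]⟩

theorem sum_dig {M : Type*} [AddCommMonoid M] (B k : ℕ) (G : (Fin k → ℕ) → M) :
    ∑ s ∈ range (B ^ k), G (fun i => dig B k s i) = ∑ x : Fin k → Fin B, G (fun i => x i) := by
  rw [← sum_digs]
  refine sum_congr rfl fun s _ => ?_
  congr 1
  funext i
  rw [getD_digs _ _ _ i.2, dig, min_eq_left i.2.le]

/-- The value of an integer polynomial at a real point. -/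
noncomputable def ev {n : ℕ} (w : ℕ → ℝ) : MvPolynomial (Fin n) ℤ →+* ℝ :=
  eval₂Hom (Int.castRingHom ℝ) fun i : Fin n => w i

theorem ev_eq {n : ℕ} (w : ℕ → ℝ) (g : MvPolynomial (Fin n) ℤ) :
    ev w g = aeval (fun i : Fin n => w i) g := by
  rw [aeval_def, algebraMap_int_eq]
  rfl

theorem ev_XN {n i : ℕ} (hi : i < n) (w : ℕ → ℝ) : ev w (XN n ℤ i) = w i := by
  simp [XN, hi, ev]

/-- Homogenised substitution. -/
noncomputable def hsub {n : ℕ} {R : Type*} [CommRing R] (s : ℕ) (L : R) (u : ℕ → R)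
    (G : MvPolynomial (Fin n) ℤ) : R :=
  ∑ c ∈ range ((s + 1) ^ n),
    ((coeff (Finsupp.equivFunOnFinite.symm fun i : Fin n => dig (s + 1) n c i) G : ℤ) : R) *
      (L ^ (s - ∑ i ∈ range n, dig (s + 1) n c i) * ∏ i ∈ range n, u i ^ dig (s + 1) n c i)

theorem map_hsub {n : ℕ} {R : Type*} [CommRing R] (φ : R →+* ℝ) {s : ℕ} {L : R} {u : ℕ → R}
    {G : MvPolynomial (Fin n) ℤ} (hG : G.totalDegree ≤ s) {v : ℕ → ℝ}
    (hu : ∀ i < n, φ (u i) = φ L * v i) : φ (hsub s L u G) = φ L ^ s * ev v G := by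
  classical
  have h1 : φ (hsub s L u G) = ∑ x : Fin n → Fin (s + 1),
      ((coeff (Finsupp.equivFunOnFinite.symm fun i : Fin n => (x i : ℕ)) G : ℤ) : ℝ) *
        (φ L ^ (s - ∑ i, (x i : ℕ)) * ∏ i : Fin n, (φ L * v i) ^ (x i : ℕ)) := by
    rw [← sum_dig (s + 1) n fun t =>
      ((coeff (Finsupp.equivFunOnFinite.symm t) G : ℤ) : ℝ) *
        (φ L ^ (s - ∑ i, t i) * ∏ i : Fin n, (φ L * v i) ^ t i), hsub, map_sum]
    refine sum_congr rfl fun c _ => ?_
    rw [map_mul, map_mul, map_intCast, map_pow, map_prod, sum_range, prod_range]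
    simp only [map_pow, hu _ (Fin.is_lt _)]
  have h2 : ev v G = ∑ d ∈ G.support, ((coeff d G : ℤ) : ℝ) * ∏ i : Fin n, v i ^ d i := by
    rw [ev, coe_eval₂Hom, eval₂_eq']
    rfl
  have hd : ∀ d ∈ G.support, ∑ i, d i ≤ s := fun d hd => by
    have := (le_totalDegree hd).trans hG
    rwa [Finsupp.sum_fintype _ _ (fun _ => rfl)] at this
  rw [h1, h2, mul_sum]
  symm
  refine sum_bij_ne_zero (fun d hd' _ i => ⟨d i, Nat.lt_succ_of_le
    ((single_le_sum (f := fun i => d i) (fun _ _ => Nat.zero_le _) (mem_univ i)).trans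
      (hd d hd'))⟩) (fun _ _ _ => mem_univ _) ?_ ?_ ?_
  · intro d _ _ d' _ _ h
    ext i
    exact congrArg Fin.val (congrFun h i)
  · intro x _ hx
    have h3 : Finsupp.equivFunOnFinite.symm (fun i : Fin n => (x i : ℕ)) ∈ G.support := by
      rw [mem_support_iff]
      intro h0
      simp [h0] at hx
    have h4 := hd _ h3
    simp only [Finsupp.equivFunOnFinite_symm_apply_apply] at h4
    refine ⟨_, h3, ?_, rfl⟩
    intro h0
    apply hx
    simp only [Finsupp.equivFunOnFinite_symm_apply_apply] at h0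
    rw [← h0]
    simp only [mul_pow, prod_mul_distrib, prod_pow_eq_pow_sum]
    rw [← mul_assoc (φ L ^ _), ← pow_add, Nat.sub_add_cancel h4]
    ring
  · intro d hd' _
    have h3 : (Finsupp.equivFunOnFinite.symm fun i : Fin n => d i) = d := by
      ext i
      simp
    simp only [h3, mul_pow, prod_mul_distrib, prod_pow_eq_pow_sum]
    rw [← mul_assoc (φ L ^ (s - _)), ← pow_add, Nat.sub_add_cancel (hd d hd')]
    ring

theorem MR0_hsub {P : Type} [Enc P] {R : α → Type} [∀ a, CommRing (R a)] [∀ a, PRing P (R a)]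
    {n s : α → ℕ} (hn : CHF n) (hnb : PBd n) (hs : CHF s) {L : (a : α) → R a} (hL : MR0 L)
    {u : (a : α) → ℕ → R a} (hu : MR0 (R := fun x : α × ℕ => R x.1) (fun x => u x.1 x.2))
    {G : (a : α) → MvPolynomial (Fin (n a)) ℤ}
    (hG : MR0 (R := fun a => MvPolynomial (Fin (n a)) ℤ) G) :
    MR0 (fun a => hsub (s a) (L a) (u a) (G a)) := by
  unfold hsub
  refine MR0_sum (MR.mul (MR.intCast (MR.toMC (MR.mvCoeff (R := fun _ => ℤ)
    (n := fun x : α × ℕ => n x.1) (by fun_prop) (by fun_prop)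
    (MR0_comp hG (u := fun x : α × ℕ => x.1) (by fun_prop))
    (fun x _ i => dig (s x.1 + 1) (n x.1) x.2 i) (by fun_prop) fun _ _ _ _ => rfl)))
    (MR.mul (MR.pow' (MR0_comp hL (u := fun x : α × ℕ => x.1) (by fun_prop)) (by fun_prop))
      (MR0_prod (MR.pow' (MR0_comp hu (u := fun x : (α × ℕ) × ℕ => (x.1.1, x.2)) (by fun_prop))
        (by fun_prop)) (by fun_prop)))) (by fun_prop)

/-- Families of polynomial functions of the first `N a` coordinates. -/
def PF (N : α → ℕ) (f : α → (ℕ → ℝ) → ℝ) : Prop :=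
  ∃ g : (a : α) → MvPolynomial (Fin (N a)) ℤ,
    MR0 (R := fun a => MvPolynomial (Fin (N a)) ℤ) g ∧ ∀ a w, ev w (g a) = f a w

namespace PF

variable {N : α → ℕ} {f g : α → (ℕ → ℝ) → ℝ}

theorem congr (hf : PF N f) (h : ∀ a w, f a w = g a w) : PF N g := by
  obtain ⟨F, h1, h2⟩ := hf
  exact ⟨F, h1, fun a w => (h2 a w).trans (h a w)⟩

theorem comp (hf : PF N f) {u : β → α} (hu : CHF u) : PF (fun b => N (u b)) fun b => f (u b) := by
  obtain ⟨F, h1, h2⟩ := hf
  exact ⟨fun b => F (u b), MR0_comp h1 hu, fun b => h2 _⟩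

theorem dep (hf : PF N f) (a : α) {x y : ℕ → ℝ} (h : ∀ i < N a, x i = y i) : f a x = f a y := by
  obtain ⟨F, -, h2⟩ := hf
  rw [← h2, ← h2, ev, ev, show (fun i : Fin (N a) => x i) = fun i : Fin (N a) => y i from
    funext fun i => h i i.2]

theorem continuous (hf : PF N f) (a : α) : Continuous (f a) := by
  obtain ⟨F, -, h2⟩ := hf
  have : f a = fun w => eval (fun i : Fin (N a) => w i) (map (Int.castRingHom ℝ) (F a)) := by
    funext w
    rw [← h2, eval_map]
    rfl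
  rw [this]
  exact (continuous_eval _).comp (continuous_pi fun i => continuous_apply _)

theorem int {z : α → ℤ} (hz : MC (fun _ (_ : Unit) => True) fun a _ => z a) :
    PF N fun a _ => (z a : ℝ) :=
  ⟨fun a => (z a : MvPolynomial (Fin (N a)) ℤ), MR.intCast hz, fun _ _ => map_intCast _ _⟩

theorem const (z : ℤ) : PF N fun _ _ => (z : ℝ) := int (MC.const z)

theorem zero : PF N fun _ _ => 0 := (const 0).congr fun _ _ => Int.cast_zero

theorem one : PF N fun _ _ => 1 := (const 1).congr fun _ _ => Int.cast_one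

theorem var (hN : CHF N) {i : α → ℕ} (hi : CHF i) :
    PF N fun a w => if i a < N a then w (i a) else 0 :=
  ⟨fun a => XN (N a) ℤ (i a), MR0_XN (R := fun _ => ℤ) hN hi, fun a w => by
    dsimp only
    split_ifs with h
    · exact ev_XN h w
    · simp [XN, h]⟩

theorem add (hf : PF N f) (hg : PF N g) : PF N fun a w => f a w + g a w := by
  obtain ⟨F, h1, h2⟩ := hf
  obtain ⟨G, h3, h4⟩ := hg
  exact ⟨fun a => F a + G a, h1.add h3, fun a w => by rw [map_add, h2, h4]⟩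

theorem mul (hf : PF N f) (hg : PF N g) : PF N fun a w => f a w * g a w := by
  obtain ⟨F, h1, h2⟩ := hf
  obtain ⟨G, h3, h4⟩ := hg
  exact ⟨fun a => F a * G a, h1.mul h3, fun a w => by rw [map_mul, h2, h4]⟩

theorem neg (hf : PF N f) : PF N fun a w => -f a w :=
  ((const (-1)).mul hf).congr fun _ _ => by simp

theorem sub (hf : PF N f) (hg : PF N g) : PF N fun a w => f a w - g a w :=
  (hf.add hg.neg).congr fun _ _ => (sub_eq_add_neg _ _).symm

theorem pow (hf : PF N f) {k : α → ℕ} (hk : CHF k) : PF N fun a w => f a w ^ k a := by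
  obtain ⟨F, h1, h2⟩ := hf
  exact ⟨fun a => F a ^ k a, h1.pow' hk, fun a w => by rw [map_pow, h2]⟩

theorem sq (hf : PF N f) : PF N fun a w => f a w ^ 2 := hf.pow (CHF.const 2)

theorem ite {q : α → Prop} {inst : ∀ a, Decidable (q a)} (hq : CHP q) (hf : PF N f)
    (hg : PF N g) : PF N fun a w => @_root_.ite _ (q a) (inst a) (f a w) (g a w) := by
  obtain ⟨F, h1, h2⟩ := hf
  obtain ⟨G, h3, h4⟩ := hg
  refine ⟨_, MR0_ite (inst := inst) hq h1 h3, fun a w => ?_⟩
  dsimp only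
  split_ifs
  · exact h2 a w
  · exact h4 a w

theorem sum {F : α → ℕ → (ℕ → ℝ) → ℝ} (hF : PF (fun x : α × ℕ => N x.1) fun x => F x.1 x.2)
    {m : α → ℕ} (hm : CHF m) : PF N fun a w => ∑ s ∈ range (m a), F a s w := by
  obtain ⟨G, h1, h2⟩ := hF
  exact ⟨fun a => ∑ s ∈ range (m a), G (a, s),
    MR0_sum (R := fun a => MvPolynomial (Fin (N a)) ℤ) (F := fun a s => G (a, s)) h1 hm,
    fun a w => by rw [map_sum]; exact sum_congr rfl fun s _ => h2 (a, s) w⟩

theorem prod {F : α → ℕ → (ℕ → ℝ) → ℝ} (hF : PF (fun x : α × ℕ => N x.1) fun x => F x.1 x.2)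
    {m : α → ℕ} (hm : CHF m) : PF N fun a w => ∏ s ∈ range (m a), F a s w := by
  obtain ⟨G, h1, h2⟩ := hF
  exact ⟨fun a => ∏ s ∈ range (m a), G (a, s),
    MR0_prod (R := fun a => MvPolynomial (Fin (N a)) ℤ) (F := fun a s => G (a, s)) h1 hm,
    fun a w => by rw [map_prod]; exact prod_congr rfl fun s _ => h2 (a, s) w⟩

/-- Renaming of the variables. -/
theorem ren (hN : CHF N) (hNb : PBd N) (hf : PF N f) {M : α → ℕ} (hM : CHF M) {ρ : α → ℕ → ℕ}
    (hρ : CHF fun x : α × ℕ => ρ x.1 x.2) (h : ∀ a, ∀ i < N a, ρ a i < M a) :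
    PF M fun a w => f a fun i => w (ρ a i) := by
  obtain ⟨F, h1, h2⟩ := hf
  obtain ⟨s, hs, hs'⟩ := h1.totalDegree
  refine ⟨fun a => hsub (s a) 1 (fun i => XN (M a) ℤ (ρ a i)) (F a),
    MR0_hsub hN hNb hs MR.one (MR0_XN (R := fun _ => ℤ) (by fun_prop) hρ) h1, fun a w => ?_⟩
  rw [map_hsub (ev w) (hs' a () trivial) (v := fun i => w (ρ a i))
    fun i hi => by rw [ev_XN (h a i hi), map_one, one_mul], map_one, one_pow, one_mul, h2]

theorem pad (hN : CHF N) (hNb : PBd N) (hf : PF N f) {M : α → ℕ} (hM : CHF M)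
    (h : ∀ a, N a ≤ M a) : PF M f :=
  hf.ren hN hNb hM (ρ := fun _ i => i) (by fun_prop) fun a _ hi => hi.trans_le (h a)

/-- The core theorem: real zeros of nonnegative polynomials. -/
theorem core (hN : CHF N) (hNb : PBd N) (hf : PF N f) (h0 : ∀ a w, 0 ≤ f a w) :
    CHP fun a => ∃ w, f a w = 0 := by
  obtain ⟨F, h1, h2⟩ := hf
  obtain ⟨s, hs, hs'⟩ := h1.totalDegree
  have h3 : ∀ a (x : Fin (N a) → ℝ), aeval x (F a) = f a (P337.ext x) := fun a x => by
    rw [← h2, ev_eq]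
    simp only [ext_val]
  refine (core_CHP hN hNb hs h1 (fun a => hs' a () trivial)
    fun a x => by rw [h3]; exact h0 _ _).congr fun a => ⟨?_, ?_⟩
  · rintro ⟨x, hx⟩
    exact ⟨_, (h3 a x).symm.trans hx⟩
  · rintro ⟨w, hw⟩
    exact ⟨fun i => w i, by rw [← ev_eq, h2, hw]⟩

/-- Sign conditions as zero sets of nonnegative polynomials in more variables. -/
theorem basic (hN : CHF N) (hNb : PBd N) (hf : PF N f) (h0 : ∀ a w, 0 ≤ f a w) (hg : PF N g)
    {F : α → ℕ → (ℕ → ℝ) → ℝ} (hF : PF (fun x : α × ℕ => N x.1) fun x => F x.1 x.2)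
    {m : α → ℕ} (hm : CHF m) :
    ∃ q : α → (ℕ → ℝ) → ℝ, PF (fun a => N a + m a) q ∧ (∀ a w, 0 ≤ q a w) ∧
      (∀ a w, q a w = 0 → f a w = 0 ∧ g a w = 0 ∧ ∀ i < m a, 0 < F a i w) ∧
      ∀ a w, f a w = 0 → g a w = 0 → (∀ i < m a, 0 < F a i w) →
        ∃ w', (∀ i < N a, w' i = w i) ∧ q a w' = 0 := by
  have hM : CHF fun a => N a + m a := by fun_prop
  have hs : ∀ (a : α) (w : ℕ → ℝ), 0 ≤ ∑ i ∈ range (m a),
      ((if N a + i < N a + m a then w (N a + i) else 0) ^ 2 * F a i w - 1) ^ 2 :=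
    fun a w => sum_nonneg fun _ _ => sq_nonneg _
  refine ⟨fun a w => f a w + g a w ^ 2 + ∑ i ∈ range (m a),
      ((if N a + i < N a + m a then w (N a + i) else 0) ^ 2 * F a i w - 1) ^ 2,
    ((hf.pad hN hNb hM fun _ => Nat.le_add_right _ _).add
      (hg.pad hN hNb hM fun _ => Nat.le_add_right _ _).sq).add
      (sum (((var (N := fun x : α × ℕ => N x.1 + m x.1) (i := fun x => N x.1 + x.2) (by fun_prop)
        (by fun_prop)).sq.mul (hF.pad (by fun_prop) (by fun_prop) (by fun_prop)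
          fun _ => Nat.le_add_right _ _)).sub one).sq hm),
    fun a w => add_nonneg (add_nonneg (h0 a w) (sq_nonneg _)) (hs a w), fun a w h => ?_,
    fun a w h1 h2 h3 => ?_⟩
  · have h1 := h0 a w
    have h2 := sq_nonneg (g a w)
    have h3 := hs a w
    dsimp only at h
    refine ⟨by linarith, pow_eq_zero_iff two_ne_zero |>.1 (by linarith), fun i hi => ?_⟩
    have h4 := pow_eq_zero_iff two_ne_zero |>.1 ((sum_eq_zero_iff_of_nonneg
      fun _ _ => sq_nonneg _).1 (le_antisymm (by linarith) h3) i (mem_range.2 hi))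
    by_contra h5
    nlinarith [mul_nonneg (sq_nonneg (if N a + i < N a + m a then w (N a + i) else 0))
      (neg_nonneg.2 (not_lt.1 h5))]
  · set w' : ℕ → ℝ := fun i => if i < N a then w i else √(F a (i - N a) w)⁻¹ with hw'
    have h4 : ∀ i < N a, w' i = w i := fun i hi => if_pos hi
    refine ⟨w', h4, ?_⟩
    dsimp only
    rw [hf.dep a h4, hg.dep a h4, h1, h2, sum_eq_zero fun i hi => ?_]
    · simp
    · have hi' := mem_range.1 hi
      have h5 : w' (N a + i) = √(F a i w)⁻¹ := by simp [hw']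
      rw [if_pos (by omega), h5, hF.dep (a, i) h4, Real.sq_sqrt (inv_nonneg.2 (h3 i hi').le),
        inv_mul_cancel₀ (h3 i hi').ne']
      simp

end PF

/-- Finite families of polynomial functions. -/
def Fam (N : α → ℕ) (S : α → Set ((ℕ → ℝ) → ℝ)) : Prop :=
  ∃ J : α → ℕ, CHF J ∧ ∃ H : α → ℕ → (ℕ → ℝ) → ℝ,
    PF (fun x : α × ℕ => N x.1) (fun x => H x.1 x.2) ∧ ∀ a, ∀ f ∈ S a, ∃ j < J a, H a j = f

namespace Fam

variable {N : α → ℕ} {S T : α → Set ((ℕ → ℝ) → ℝ)}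

theorem single {f : α → (ℕ → ℝ) → ℝ} (hf : PF N f) : Fam N fun a => {f a} :=
  ⟨fun _ => 1, by fun_prop, fun a _ => f a, hf.comp (u := fun x : α × ℕ => x.1) (by fun_prop),
    fun _ _ h => ⟨0, one_pos, h.symm⟩⟩

theorem comp (hS : Fam N S) {u : β → α} (hu : CHF u) :
    Fam (fun b => N (u b)) fun b => S (u b) := by
  obtain ⟨J, hJ, H, hH, h⟩ := hS
  exact ⟨fun b => J (u b), by fun_prop, fun b => H (u b),
    hH.comp (u := fun x : β × ℕ => (u x.1, x.2)) (by fun_prop), fun b => h _⟩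

theorem pad (hN : CHF N) (hNb : PBd N) (hS : Fam N S) {M : α → ℕ} (hM : CHF M)
    (h : ∀ a, N a ≤ M a) : Fam M S := by
  obtain ⟨J, hJ, H, hH, h'⟩ := hS
  exact ⟨J, hJ, H, hH.pad (by fun_prop) (by fun_prop) (by fun_prop) fun x => h x.1, h'⟩

theorem bind {U : α → ℕ → Set ((ℕ → ℝ) → ℝ)}
    (hU : Fam (fun x : α × ℕ => N x.1) fun x => U x.1 x.2) {m : α → ℕ} (hm : CHF m) :
    Fam N fun a => {f | ∃ c < m a, f ∈ U a c} := by
  obtain ⟨J, hJ, H, hH, h⟩ := hU
  obtain ⟨V, hV, hV'⟩ := CHF.exists_bound (f := fun a s => J (a, s)) hJ hm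
  refine ⟨fun a => m a * V a, by fun_prop, fun a j => H (a, j / V a) (j % V a),
    hH.comp (u := fun x : α × ℕ => ((x.1, x.2 / V x.1), x.2 % V x.1)) (by fun_prop), ?_⟩
  rintro a f ⟨c, hc, hf⟩
  obtain ⟨j, hj, rfl⟩ := h (a, c) f hf
  have h1 : j < V a := hj.trans_le (hV' a c hc)
  refine ⟨j + V a * c, ?_, ?_⟩
  · calc j + V a * c < V a * (c + 1) := by rw [mul_add]; omega
      _ ≤ m a * V a := by rw [mul_comm]; exact Nat.mul_le_mul_right _ hc
  · dsimp only
    rw [Nat.add_mul_div_left _ _ (by omega), Nat.add_mul_mod_self_left, Nat.div_eq_of_lt h1,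
      Nat.mod_eq_of_lt h1, zero_add]

theorem union (hS : Fam N S) (hT : Fam N T) : Fam N fun a => S a ∪ T a := by
  obtain ⟨J, hJ, H, hH, h⟩ := hS
  obtain ⟨J', hJ', H', hH', h'⟩ := hT
  refine ⟨fun a => J a + J' a, by fun_prop,
    fun a j w => if j < J a then H a j w else H' a (j - J a) w,
    PF.ite (by fun_prop) hH (hH'.comp (u := fun x : α × ℕ => (x.1, x.2 - J x.1)) (by fun_prop)),
    ?_⟩
  rintro a f (hf | hf)
  · obtain ⟨j, hj, rfl⟩ := h a f hf
    exact ⟨j, by dsimp only; omega, funext fun w => if_pos hj⟩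
  · obtain ⟨j, hj, rfl⟩ := h' a f hf
    exact ⟨J a + j, by dsimp only; omega, funext fun w => by simp⟩

end Fam

/-- All functions of the family have the same sign at the two points. -/
def Same (S : Set ((ℕ → ℝ) → ℝ)) (x y : ℕ → ℝ) : Prop :=
  ∀ f ∈ S, SignType.sign (f x) = SignType.sign (f y)

theorem Same.symm {S : Set ((ℕ → ℝ) → ℝ)} {x y : ℕ → ℝ} (h : Same S x y) : Same S y x :=
  fun f hf => (h f hf).symm

theorem Same.trans {S : Set ((ℕ → ℝ) → ℝ)} {x y z : ℕ → ℝ} (h : Same S x y) (h' : Same S y z) :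
    Same S x z := fun f hf => (h f hf).trans (h' f hf)

theorem Same.zero_iff {S : Set ((ℕ → ℝ) → ℝ)} {x y : ℕ → ℝ} (h : Same S x y)
    {f : (ℕ → ℝ) → ℝ} (hf : f ∈ S) : f x = 0 ↔ f y = 0 := by
  rw [← sign_eq_zero_iff, h f hf, sign_eq_zero_iff]

end Vale.Agent.N337
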