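import Vale.Agent.N337.WDefs
import Vale.Agent.P337T.Final

/-!
The counting hierarchy defined by oracles is contained in the hierarchy defined by majority
quantifiers. Runs of oracle programs with guessed answers of the oracle: the questions and the
output are computed in polynomial time without oracle.
-/

namespace Vale.Agent.N337

open Vale.Agent.Lib.PolyTime Vale.Agent.P337

section Trace

open Vale.Agent.Lib.PolyTime.ToTM2 Function

/-- The stack which is read or changed by the next instruction. -/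
def ui : List Prog → ℕ
  | .push i _ :: _ => i
  | .pop i :: _ => i
  | .query _ j :: _ => j
  | .ite i _ _ _ :: _ => i
  | .loop i _ :: _ => i
  | _ => 0

/-- The stack which holds the question of the next instruction. -/
def qi : List Prog → ℕ
  | .query i _ :: _ => i
  | _ => 0

/-- The next continuation and the new content of the stack `ui`. -/
def act (b : Bool) (w : Word) : List Prog → List Prog × Word
  | [] => ([], w)
  | .skip :: k => (k, w)
  | .push _ c :: k => (k, c :: w)
  | .pop _ :: k => (k, w.tail)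
  | .query _ _ :: k => (k, b :: w)
  | .seq p q :: k => (p :: q :: k, w)
  | .ite _ p q r :: k => (if w.isEmpty then p :: k else bif w.headD false then r :: k else q :: k, w)
  | .loop i p :: k => (if w.isEmpty then k else p :: .loop i p :: k, w)

/-- One step, when the oracle answers `b`. -/
def stp (b : Bool) (c : List Prog × (ℕ → Word)) : List Prog × (ℕ → Word) :=
  ((act b (c.2 (ui c.1)) c.1).1, update c.2 (ui c.1) (act b (c.2 (ui c.1)) c.1).2)

open Classical in
/-- One step with the oracle `A`. -/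
noncomputable def stpA (A : Set Word) (c : List Prog × (ℕ → Word)) : List Prog × (ℕ → Word) :=
  stp (decide (c.2 (qi c.1) ∈ A)) c

theorem sim {A : Set Word} {p : Prog} {s s' : ℕ → Word} {t : ℕ} (h : Eval A p s t s') :
    ∀ k, ∃ u, u + 1 ≤ 2 * t ∧ (stpA A)^[u] (p :: k, s) = (k, s') := by
  induction h with
  | skip s => exact fun k => ⟨1, le_rfl, by simp [stpA, stp, act]⟩
  | push s i b => exact fun k => ⟨1, le_rfl, rfl⟩
  | pop s i => exact fun k => ⟨1, le_rfl, rfl⟩
  | query_yes s i j h => exact fun k => ⟨1, le_rfl, by simp [stpA, stp, act, ui, qi, h]⟩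
  | query_no s i j h => exact fun k => ⟨1, le_rfl, by simp [stpA, stp, act, ui, qi, h]⟩
  | @seq p q s s₁ s₂ t₁ t₂ _ _ ih₁ ih₂ =>
    intro k
    obtain ⟨u₁, h1, h2⟩ := ih₁ (q :: k)
    obtain ⟨u₂, h3, h4⟩ := ih₂ k
    refine ⟨u₂ + u₁ + 1, by omega, ?_⟩
    rw [iterate_succ_apply, iterate_add_apply, ← h4, ← h2]
    simp [stpA, stp, act]
  | ite_nil h _ ih =>
    intro k
    obtain ⟨u, h1, h2⟩ := ih k
    refine ⟨u + 1, by omega, ?_⟩
    rw [iterate_succ_apply, ← h2]
    simp only [stpA, stp, act, ui, update_eq_self]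
    simp [h]
  | @ite_false p q r s s' t i h _ ih =>
    intro k
    obtain ⟨u, h1, h2⟩ := ih k
    obtain ⟨w, hw⟩ := List.head?_eq_some_iff.1 h
    refine ⟨u + 1, by omega, ?_⟩
    rw [iterate_succ_apply, ← h2]
    simp only [stpA, stp, act, ui, update_eq_self]
    simp [hw]
  | @ite_true p q r s s' t i h _ ih =>
    intro k
    obtain ⟨u, h1, h2⟩ := ih k
    obtain ⟨w, hw⟩ := List.head?_eq_some_iff.1 h
    refine ⟨u + 1, by omega, ?_⟩
    rw [iterate_succ_apply, ← h2]
    simp only [stpA, stp, act, ui, update_eq_self]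
    simp [hw]
  | loop_stop h =>
    refine fun k => ⟨1, le_rfl, ?_⟩
    simp only [iterate_one, stpA, stp, act, ui, update_eq_self]
    simp [h]
  | @loop_step p s s₁ s₂ t₁ t₂ i h _ _ ih₁ ih₂ =>
    intro k
    obtain ⟨u₁, h1, h2⟩ := ih₁ (.loop i p :: k)
    obtain ⟨u₂, h3, h4⟩ := ih₂ k
    refine ⟨u₂ + u₁ + 1, by omega, ?_⟩
    rw [iterate_succ_apply, iterate_add_apply, ← h4, ← h2]
    simp only [stpA, stp, act, ui, update_eq_self]
    simp [h]

theorem act_reach (b : Bool) (w : Word) (p : Prog) :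
    ∀ k, ∀ l ∈ reach p k, (act b w l).1 ∈ insert k (reach p k) := by
  induction p with
  | skip => rintro k _ rfl; exact Or.inl rfl
  | push => rintro k _ rfl; exact Or.inl rfl
  | pop => rintro k _ rfl; exact Or.inl rfl
  | query => rintro k _ rfl; exact Or.inl rfl
  | seq p q ihp ihq =>
    rintro k l (rfl | h | h)
    · exact Or.inr (Or.inr (Or.inl (self_mem_reach _ _)))
    · rcases ihp _ l h with h | h
      · exact Or.inr (Or.inr (Or.inr (h ▸ self_mem_reach _ _)))
      · exact Or.inr (Or.inr (Or.inl h))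
    · exact (ihq _ l h).imp_right fun h => Or.inr (Or.inr h)
  | ite i p q r ihp ihq ihr =>
    rintro k l (rfl | h | h | h)
    · refine Or.inr (Or.inr ?_)
      rw [act]
      split_ifs
      · exact Or.inl (self_mem_reach _ _)
      · cases w.headD false
        · exact Or.inr (Or.inl (self_mem_reach _ _))
        · exact Or.inr (Or.inr (self_mem_reach _ _))
    · exact (ihp _ l h).imp_right fun h => Or.inr (Or.inl h)
    · exact (ihq _ l h).imp_right fun h => Or.inr (Or.inr (Or.inl h))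
    · exact (ihr _ l h).imp_right fun h => Or.inr (Or.inr (Or.inr h))
  | loop i p ih =>
    rintro k l (rfl | h)
    · rw [act]
      split_ifs
      · exact Or.inl rfl
      · exact Or.inr (Or.inr (self_mem_reach _ _))
    · exact Or.inr ((ih _ l h).imp_left id)

theorem length_act (b : Bool) (w : Word) (l : List Prog) :
    (act b w l).2.length ≤ w.length + 1 := by
  rcases l with _ | ⟨_ | _ | _ | _ | _ | _ | _, k⟩ <;> simp [act]
  omega

theorem PT_act (idx : List Prog → ℕ) (l : List Prog) :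
    PT ∅ fun z : Bool × List Bool => (idx (act z.1 z.2 l).1, ((act z.1 z.2 l).2 : List Bool)) := by
  rcases l with _ | ⟨_ | ⟨i, c⟩ | _ | _ | ⟨p, q⟩ | ⟨i, p, q, r⟩ | ⟨i, p⟩, k⟩
  · exact (PT.const (idx [])).pair PT.snd'
  · exact (PT.const (idx k)).pair PT.snd'
  · exact (PT.const (idx k)).pair ((PT.const c).cons PT.snd')
  · exact (PT.const (idx k)).pair PT.snd'.tail
  · exact (PT.const (idx k)).pair (PT.fst'.cons PT.snd')
  · exact (PT.const (idx (p :: q :: k))).pair PT.snd'
  · refine ((PT.snd'.ifNil (PT.const (idx (p :: k))) ((PT.snd'.headD (PT.const false)).cond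
      (PT.const (idx (r :: k))) (PT.const (idx (q :: k))))).congr fun z => ?_).pair PT.snd'
    rw [act]
    split_ifs
    · rfl
    · cases z.2.headD false <;> rfl
  · refine ((PT.snd'.ifNil (PT.const (idx k)) (PT.const (idx (p :: .loop i p :: k)))).congr
      fun z => ?_).pair PT.snd'
    rw [act]
    split_ifs <;> rfl

theorem PT_finCase {β γ : Type} [Enc β] [Enc γ] {h : ℕ → γ → β} (hh : ∀ c, PT ∅ (h c)) (n : ℕ) :
    PT ∅ fun z : ℕ × γ => h (min z.1 n) z.2 := by
  induction n with
  | zero => exact ((hh 0).comp PT.snd').congr fun z => by simp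
  | succ n ih =>
    refine (PT.ite (p := fun z : ℕ × γ => n < z.1) ((PT.const n).lt PT.fst')
      ((hh (n + 1)).comp PT.snd') ih).congr fun z => ?_
    split_ifs
    · rw [min_eq_right (by omega)]
    · rw [min_eq_left (by omega), min_eq_left (by omega)]

/-- The run on the input `x`, when the answers of the oracle are the bits of `τ`. -/
def tr (p : Prog) (x : Word) (τ : ℕ) : ℕ → List Prog × (ℕ → Word)
  | 0 => ([p], start x [])
  | i + 1 => stp (τ.testBit i) (tr p x τ i)

theorem exists_trace (p : Prog) {k : Raw → ℕ} (hk : PT ∅ k) (hkb : PBd k) :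
    ∃ Q O : (Raw × ℕ) × ℕ → Raw, PT ∅ Q ∧ PT ∅ O ∧ ∀ x τ, ∀ i ≤ k x,
      (Q ((x, τ), i)).w = (tr p x.w τ i).2 (qi (tr p x.w τ i).1) ∧
        (O ((x, τ), i)).w = (tr p x.w τ i).2 0 := by
  classical
  have hfin := (reach_finite p []).insert []
  set R := insert [] (reach p []) with hR
  obtain ⟨n, st, idx, hst⟩ : ∃ (n : ℕ) (st : ℕ → List Prog) (idx : List Prog → ℕ),
      (∀ l, idx l ≤ n) ∧ ∀ l ∈ R, st (idx l) = l :=
    ⟨_, fun c => hfin.toFinset.toList.getD c [], fun l => hfin.toFinset.toList.idxOf l,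
      fun _ => List.idxOf_le_length, fun l hl => by
        have h : l ∈ hfin.toFinset.toList := Finset.mem_toList.2 (hfin.mem_toFinset.2 hl)
        dsimp only
        rw [List.getD_eq_getElem _ _ (List.idxOf_lt_length_iff.2 h), List.getElem_idxOf]⟩
  obtain ⟨N, hN⟩ := (hfin.image ui).bddAbove
  have inv : ∀ x τ i, (tr p x τ i).1 ∈ R ∧ (∀ j, N < j → (tr p x τ i).2 j = []) ∧
      ∀ j, ((tr p x τ i).2 j).length ≤ x.length + i := fun x τ i => by
    induction i with
    | zero =>
      refine ⟨Or.inr (self_mem_reach _ _), fun j hj => ?_, fun j => ?_⟩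
      · simp [tr, start, show j ≠ 0 by omega]
      · simp only [tr, start]
        split_ifs <;> simp
    | succ i ih =>
      obtain ⟨h1, h2, h3⟩ := ih
      have h4 := hN ⟨_, h1, rfl⟩
      refine ⟨h1.elim (fun h => by rw [tr, stp, h]; exact Or.inl rfl) (act_reach _ _ p [] _),
        fun j hj => (update_of_ne (by omega) _ _).trans (h2 j hj), fun j => ?_⟩
      simp only [tr, stp, update_apply]
      split_ifs
      · exact (length_act _ _ _).trans (Nat.succ_le_succ (h3 _))
      · exact (h3 j).trans (by omega)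
  have hm : ∀ x τ i j, ((List.range (N + 1)).map (tr p x τ i).2).getD j [] = (tr p x τ i).2 j :=
    fun x τ i j => by
      by_cases h : j < N + 1
      · rw [List.getD_eq_getElem _ _ (by simpa using h)]
        simp
      · rw [List.getD_eq_default _ _ (by simpa using h), (inv x τ i).2.1 j (by omega)]
  obtain ⟨G, hG, hG'⟩ : ∃ G : ℕ × Bool × List (List Bool) → ℕ × List (List Bool), PT ∅ G ∧
      ∀ x τ i b, G (idx (tr p x τ i).1, b, (List.range (N + 1)).map (tr p x τ i).2) =
        (idx (stp b (tr p x τ i)).1, (List.range (N + 1)).map (stp b (tr p x τ i)).2) := by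
    refine ⟨_, PT_finCase (h := fun c (z : Bool × List (List Bool)) =>
      (idx (act z.1 (z.2.getD (ui (st c)) []) (st c)).1, (List.range (N + 1)).map fun j =>
        if j = ui (st c) then ((act z.1 (z.2.getD (ui (st c)) []) (st c)).2 : List Bool)
        else z.2.getD j [])) (fun c => ?_) n, fun x τ i b => ?_⟩
    · have h1 := (PT_act idx (st c)).comp (f := fun z : Bool × List (List Bool) =>
        (z.1, z.2.getD (ui (st c)) [])) (PT.fst'.pair (PT.snd'.getD (PT.const _) (PT.const _)))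
      exact h1.fst.pair ((PT.const _).map (PT.ite (PT.snd'.eqNat (PT.const _))
        (h1.snd.comp PT.fst') (PT.fst'.snd.getD PT.snd' (PT.const _))))
    · simp only [min_eq_left (hst.1 _), hst.2 _ (inv x τ i).1, hm, stp, ← update_apply]
  have key : ∀ (z : (Raw × ℕ) × ℕ) (i : ℕ), Nat.rec (motive := fun _ => ℕ × List (List Bool))
      (idx [p], (z.1.1.w : List Bool) :: List.replicate N [])
      (fun i c => G (c.1, z.1.2.testBit i, c.2)) i = (idx (tr p z.1.1.w z.1.2 i).1,
        (List.range (N + 1)).map (tr p z.1.1.w z.1.2 i).2) := fun z i => by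
    induction i with
    | zero =>
      refine Prod.ext rfl (List.ext_getElem (by simp) fun j h1 h2 => ?_)
      cases j <;> simp [tr, start]
    | succ i ih => exact (congrArg (fun c => G (c.1, z.1.2.testBit i, c.2)) ih).trans (hG' _ _ _ _)
  have hk' : PBd fun z : (Raw × ℕ) × ℕ => k z.1.1 := hkb.comp (A := ∅) PT.fst'.fst
  have hx : PBd fun z : (Raw × ℕ) × ℕ => z.1.1.w.length := (PT.fst'.fst (A := ∅)).pbd
  have h1 := (PT.natRec (k := fun z : (Raw × ℕ) × ℕ => min z.2 (k z.1.1))
    (init := fun z => (idx [p], (z.1.1.w : List Bool) :: List.replicate N []))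
    (step := fun z i c => G (c.1, z.1.2.testBit i, c.2))
    (PT.snd'.min (hk.comp PT.fst'.fst)) (hk'.mono fun _ => min_le_right _ _)
    ((PT.const _).pair ((PT.listOfRaw PT.fst'.fst).cons (PT.const _)))
    (hG.comp (PT.snd'.snd.fst.pair ((PT.fst'.fst.snd.testBit PT.snd'.fst).pair PT.snd'.snd.snd)))
    (b := fun z => 2 * n + (N + 1) * (2 * ((z.1.1.w.length + k z.1.1) * 3) + 1) + 1)
    (((PBd.const _).add ((PBd.const _).mul (((PBd.const 2).mul ((hx.add hk').mul
      (PBd.const 3))).add (PBd.const 1)))).add (PBd.const 1)) fun z i hi => by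
      rw [key, esize_pair]
      have h1 := (esize_nat_le_self _).trans (hst.1 (tr p z.1.1.w z.1.2 i).1)
      have h2 := esize_list_le (l := (List.range (N + 1)).map (tr p z.1.1.w z.1.2 i).2)
        (B := (z.1.1.w.length + k z.1.1) * 3) fun w hw => by
          obtain ⟨j, -, rfl⟩ := List.mem_map.1 hw
          refine (esize_list_le (B := 1) fun _ _ => le_rfl).trans (Nat.mul_le_mul_right _ ?_)
          exact ((inv _ _ _).2.2 j).trans (by omega)
      rw [List.length_map, List.length_range] at h2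
      omega).congr fun z => key z _
  refine ⟨_, _, PT.rawOfList (h1.snd.getD ((PT_finCase (h := fun c (_ : Unit) => qi (st c))
    (fun _ => PT.const _) n).comp (h1.fst.pair (PT.const ()))) (PT.const [])),
    PT.rawOfList (h1.snd.getD (PT.const 0) (PT.const [])), fun x τ i hi => ?_⟩
  simp only [min_eq_left hi, min_eq_left (hst.1 _), hst.2 _ (inv _ _ _).1, hm, and_self]

/-- A polynomial time computation with the oracle `A` is a guess of the answers of the oracle. -/
theorem exists_guess {A : Set Word} {f : Word → Word} (hf : FP A f) :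
    ∃ (k : Raw → ℕ) (Q : (Raw × ℕ) × ℕ → Raw) (O : Raw × ℕ → Bool), PT ∅ k ∧ PBd k ∧ PT ∅ Q ∧
      PT ∅ O ∧ ∀ x : Raw, hd (f x.w) = true ↔ ∃ τ, τ < 2 ^ k x ∧
        (∀ i, i < k x → (τ.testBit i = true ↔ (Q ((x, τ), i)).w ∈ A)) ∧ O (x, τ) = true := by
  classical
  obtain ⟨p, T, hp⟩ := hf.exists_prog
  obtain ⟨u, hu, hu'⟩ := FP.exists_poly (A := ∅) (2 * T) FP.id
  have h1 : PT ∅ fun a : Raw => (2 * T).eval a.w.length :=
    (PT.rawLength (PT_ofFP hu PT.id)).congr fun a => hu' a.w
  have h2 : PBd fun a : Raw => (2 * T).eval a.w.length := PBd.of_PB (PB.of_polynomial _)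
  obtain ⟨Q, O, hQ, hO, h⟩ := exists_trace p h1 h2
  refine ⟨_, Q, _, h1, h2, hQ, PT.rawHd (hO.comp (PT.id.pair (h1.comp PT.fst'))), fun x => ?_⟩
  obtain ⟨t, s, h3, h4, h5⟩ := hp x.w
  obtain ⟨v, h6, h7⟩ := sim h3 []
  obtain ⟨d, hd'⟩ : ∃ d, (2 * T).eval x.w.length = d + v :=
    ⟨(2 * T).eval x.w.length - v, by simp only [Polynomial.eval_mul, Polynomial.eval_ofNat]; omega⟩
  have h8 : ((stpA A)^[(2 * T).eval x.w.length] ([p], start x.w [])).2 0 = f x.w := by
    rw [hd', iterate_add_apply, h7, iterate_fixed (by simp [stpA, stp, act]), ← h5]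
  have h9 := h x
  dsimp only
  generalize (2 * T).eval x.w.length = k at h8 h9
  have key : ∀ τ : ℕ, (∀ i < k, tr p x.w τ i = (stpA A)^[i] ([p], start x.w []) →
      (τ.testBit i = true ↔ (tr p x.w τ i).2 (qi (tr p x.w τ i).1) ∈ A)) →
      ∀ i ≤ k, tr p x.w τ i = (stpA A)^[i] ([p], start x.w []) := fun τ hτ i hi => by
    induction i with
    | zero => rfl
    | succ i ih =>
      rw [iterate_succ_apply', ← ih (by omega), tr, stpA,
        Bool.eq_iff_iff.2 ((hτ i hi (ih (by omega))).trans decide_eq_true_iff.symm)]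
  constructor
  · intro h10
    obtain ⟨τ, h11, h12⟩ : ∃ τ < 2 ^ k, ∀ i < k, τ.testBit i = true ↔
        ((stpA A)^[i] ([p], start x.w [])).2 (qi ((stpA A)^[i] ([p], start x.w [])).1) ∈ A :=
      ⟨_, Nat.ofBits_lt_two_pow fun i : Fin k => decide (((stpA A)^[i] ([p], start x.w [])).2
        (qi ((stpA A)^[i] ([p], start x.w [])).1) ∈ A), fun i hi => by
          rw [Nat.testBit_ofBits_lt _ _ hi, decide_eq_true_iff]⟩
    have h13 := key τ fun i hi h13 => h13 ▸ h12 i hi
    exact ⟨τ, h11, fun i hi => by rw [(h9 τ i hi.le).1, h13 i hi.le, h12 i hi],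
      by rwa [(h9 τ k le_rfl).2, h13 k le_rfl, h8]⟩
  · rintro ⟨τ, -, h10, h11⟩
    rwa [(h9 τ k le_rfl).2, key τ (fun i hi _ => by rw [h10 i hi, (h9 τ i hi.le).1]) k le_rfl,
      h8] at h11

end Trace

open Finset

open Classical in
/-- The number of `s < m` with `p s`. -/
noncomputable def nc (m : ℕ) (p : ℕ → Prop) : ℕ := ((range m).filter p).card

theorem nc_pos {m : ℕ} {p : ℕ → Prop} : 0 < nc m p ↔ ∃ s, s < m ∧ p s := by
  simp [nc, card_pos, filter_nonempty_iff]

theorem nc_not (m : ℕ) (p : ℕ → Prop) :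
    nc (m + 1) (fun s => bif decide (s < m) then ¬ p s else True) + nc m p = m + 1 := by
  classical
  have h := card_filter_add_card_filter_not (s := range m) p
  rw [card_range] at h
  rw [nc, nc, range_add_one, filter_insert, if_pos (by simp), card_insert_of_notMem (by simp),
    filter_congr (q := fun s => ¬ p s) fun s hs => by simp [mem_range.1 hs]]
  omega

/-- Predicates given by `j` counting quantifiers. -/
def VP : ℕ → (α : Type) → [Enc α] → (α → Prop) → Prop
  | 0, α, _, p => ∃ f : α → Bool, PT ∅ f ∧ ∀ a, p a ↔ f a = true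
  | j + 1, α, _, q => ∃ (p : α × ℕ → Prop) (m θ : α → ℕ), VP j (α × ℕ) p ∧ PT ∅ m ∧ PT ∅ θ ∧
      ∀ a, q a ↔ θ a < nc (m a) fun s => p (a, s)

namespace VP

theorem comp {j : ℕ} : ∀ {α β : Type} [Enc α] [Enc β] {p : β → Prop} {f : α → β},
    VP j β p → PT ∅ f → VP j α fun a => p (f a) := by
  induction j with
  | zero => exact fun ⟨_, hg, h⟩ hf => ⟨_, hg.comp hf, fun _ => h _⟩
  | succ j ih =>
    exact fun ⟨_, _, _, hp, hm, hθ, h⟩ hf => ⟨_, _, _, ih hp ((hf.comp PT.fst').pair PT.snd'),
      hm.comp hf, hθ.comp hf, fun _ => h _⟩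

theorem cond {j : ℕ} : ∀ {α : Type} [Enc α] {c : α → Bool} {p q : α → Prop},
    PT ∅ c → VP j α p → VP j α q → VP j α fun a => bif c a then p a else q a := by
  induction j with
  | zero =>
    rintro α _ c p q hc ⟨f, hf, h⟩ ⟨g, hg, h'⟩
    exact ⟨_, hc.cond hf hg, fun a => by cases hc : c a <;> simp [h, h', hc]⟩
  | succ j ih =>
    rintro α _ c p q hc ⟨p', m, θ, hp, hm, hθ, h⟩ ⟨q', m', θ', hq, hm', hθ', h'⟩
    exact ⟨_, _, _, ih (hc.comp PT.fst') hp hq, hc.cond hm hm', hc.cond hθ hθ',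
      fun a => by cases hc : c a <;> simp [h, h', hc]⟩

variable {α : Type} [Enc α] {p : α → Prop}

theorem mono {i j : ℕ} (hp : VP i α p) (h : i ≤ j) : VP j α p := by
  induction h with
  | refl => exact hp
  | step _ ih =>
    exact ⟨_, _, _, ih.comp PT.fst', PT.const 1, PT.const 0, fun a => by simp [nc_pos]⟩

theorem of_PT {f : α → Bool} (hf : PT ∅ f) (j : ℕ) : VP j α fun a => f a = true :=
  mono (i := 0) ⟨f, hf, fun _ => Iff.rfl⟩ j.zero_le

theorem congr {j : ℕ} {q : α → Prop} (hp : VP j α p) (h : ∀ a, p a ↔ q a) : VP j α q := by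
  rwa [← show p = q from funext fun a => propext (h a)]

theorem not {j : ℕ} : ∀ {α : Type} [Enc α] {p : α → Prop}, VP j α p → VP j α fun a => ¬ p a := by
  induction j with
  | zero => exact fun ⟨_, hf, h⟩ => ⟨_, hf.not, fun a => by simp [h]⟩
  | succ j ih =>
    rintro α _ q ⟨p, m, θ, hp, hm, hθ, h⟩
    refine ⟨_, _, _, cond (PT.snd'.lt (hm.comp PT.fst')) (ih hp)
      ((of_PT (PT.const true) j).congr (q := fun _ => True) fun _ => by simp),
      hm.add (PT.const 1), hm.sub hθ, fun a => ?_⟩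
    have := nc_not (m a) fun s => p (a, s)
    have h1 : nc (m a) (fun s => p (a, s)) ≤ m a := by
      classical
      exact (card_filter_le _ _).trans (card_range _).le
    dsimp only
    rw [h]
    omega

theorem exists_lt {j : ℕ} {p : α × ℕ → Prop} (hp : VP j _ p) {m : α → ℕ} (hm : PT ∅ m) :
    VP (j + 1) α fun a => ∃ s, s < m a ∧ p (a, s) :=
  ⟨p, m, _, hp, hm, PT.const 0, fun _ => nc_pos.symm⟩

theorem forall_lt {j : ℕ} {p : α × ℕ → Prop} (hp : VP j _ p) {m : α → ℕ} (hm : PT ∅ m) :
    VP (j + 1) α fun a => ∀ s, s < m a → p (a, s) :=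
  (hp.not.exists_lt hm).not.congr fun a => by simp

/-- Polynomial time with an oracle. -/
theorem of_FP {j : ℕ} {A : Set Word} (hA : VP j Raw fun w => w.w ∈ A) {f : Word → Word}
    (hf : FP A f) : VP (j + 2) Raw fun w => hd (f w.w) = true := by
  obtain ⟨k, Q, O, hk, hkb, hQ, hO, h⟩ := exists_guess hf
  refine ((cond hO ((cond (PT.fst'.snd.testBit PT.snd') (hA.comp hQ) (hA.comp hQ).not).forall_lt
    (hk.comp PT.fst')) (of_PT (PT.const false) _)).exists_lt
      ((PT.const 2).pow hk hkb)).congr fun x => .trans (exists_congr fun τ => ?_) (h x).symm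
  refine and_congr_right fun _ => ?_
  dsimp only
  cases O (x, τ)
  · simp
  · simp only [cond_true, and_true]
    exact forall₂_congr fun i _ => by cases τ.testBit i <;> simp

theorem of_mem_C (j : ℕ) : ∀ L ∈ C j, VP (3 * j) Raw fun w => w.w ∈ L := by
  classical
  induction j with
  | zero => exact fun L hL => ⟨_, PT_of_FP_chi (mem_P_iff.1 hL) PT.id, fun _ => by simp⟩
  | succ j ih =>
    intro L hL
    obtain ⟨A, hA, hL⟩ := mem_C_succ.1 hL
    obtain ⟨F, q, hF, h⟩ := mem_PP_iff.1 hL
    obtain ⟨u, hu, hu'⟩ := FP.exists_poly (A := ∅) q FP.id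
    have hq : PT ∅ fun x : Raw => q.eval x.w.length :=
      (PT.rawLength (PT_ofFP hu PT.id)).congr fun x => hu' _
    have hqb : PBd fun x : Raw => q.eval x.w.length := PBd.of_PB (PB.of_polynomial q)
    have h2 : PT ∅ fun x : Raw => 2 ^ q.eval x.w.length := PT.pow (PT.const 2) hq hqb
    refine ⟨_, _, _, (of_FP (ih A hA) hF).comp (PT_toRaw (PT.fst'.pair (PT_padW (hq.comp PT.fst')
      (hqb.comp (A := ∅) PT.fst') PT.snd'))), h2, h2.half, fun x => ?_⟩
    have e : ∀ w : Word, (w.head? = some true) ↔ hd w = true := fun w => by cases w <;> simp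
    dsimp only
    rw [h, ncard_words]
    simp only [e]
    change 2 ^ q.eval x.w.length < 2 * (_ : ℕ) ↔ _ < nc _ fun s =>
      hd (F (pr x.w (padW (q.eval x.w.length) s))) = true
    rw [nc, mul_comm, ← Nat.div_lt_iff_lt_mul two_pos]
    congr!

theorem exists_mem_W {j : ℕ} : ∀ {α : Type} [Enc α] {p : α → Prop}, VP j α p →
    ∃ L ∈ W j, ∀ a, enc a ∈ L ↔ p a := by
  classical
  induction j with
  | zero =>
    rintro α _ p ⟨f, ⟨F, hF, hF'⟩, h⟩
    exact ⟨{w | F w = [true]}, ⟨F, P337T.polyTime_iff.2 (polyTimeFun_iff.2 hF), fun _ => Iff.rfl⟩,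
      fun a => by simp [hF', h, enc_bool]⟩
  | succ j ih =>
    rintro α _ q ⟨p, m, θ, hp, hm, hθ, h⟩
    obtain ⟨c, hc⟩ := hm.pbd
    obtain ⟨d, hd⟩ := hθ.pbd
    obtain ⟨T, hT⟩ := ((PB.pb c).add (PB.pb d)).exists_polynomial
    have hv : PT ∅ fun z : α × Raw => val z.2.w := PT.rawVal PT.snd'
    have hQ : PT ∅ fun z : α × Raw => 2 ^ (z.2.w.length - 1) :=
      PT.pow (PT.const 2) ((PT.rawLength PT.snd').sub (PT.const 1))
        ((PT.snd' (A := ∅) (α := α) (β := Raw)).pbd.mono fun z => by rw [esize_raw]; omega)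
    obtain ⟨B, hB, hB'⟩ := ih (cond (hv.lt (hm.comp PT.fst')) (hp.comp (PT.fst'.pair hv))
      (of_PT ((hQ.le hv).and ((hv.add (hθ.comp PT.fst')).lt ((PT.const 2).mul hQ))) j))
    refine ⟨_, Set.mem_biUnion hB ⟨T + 1, fun _ => Iff.rfl⟩, fun a => ?_⟩
    have h1 := hc a
    have h2 := hd a
    have h3 := hT (esize a)
    have e1 : (T + 1).eval (enc a).length = T.eval (esize a) + 1 := by simp [esize]
    change 2 ^ _ < 2 * _ ↔ _
    rw [e1, ncard_words, h]
    generalize T.eval (esize a) = k at h3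
    have hmk : m a < 2 ^ k := (lt_two_pow_esize _).trans_le
      (Nat.pow_le_pow_right two_pos (by dsimp only at h1 h3; omega))
    have hθk : θ a < 2 ^ k := (lt_two_pow_esize _).trans_le
      (Nat.pow_le_pow_right two_pos (by dsimp only at h2 h3; omega))
    have e2 : ((range (2 ^ (k + 1))).filter fun s => P337T.pair (enc a) (padW (k + 1) s) ∈ B) =
        ((range (m a)).filter fun s => p (a, s)) ∪ Ico (2 ^ k) (2 * 2 ^ k - θ a) := by
      ext s
      have e3 := hB' (a, ⟨padW (k + 1) s⟩)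
      rw [enc_pair, enc_raw, ← pair_eq_pr, ← P337T.pair_eq] at e3
      simp only [mem_filter, mem_range, mem_union, mem_Ico, e3, length_padW, Nat.add_sub_cancel]
      by_cases h4 : s < 2 ^ (k + 1)
      · rw [val_padW h4]
        by_cases h5 : s < m a <;> simp [h4, h5] <;> omega
      · rw [pow_succ] at h4
        simp only [pow_succ, h4, false_and, false_iff]
        omega
    rw [e2, card_union_of_disjoint, Nat.card_Ico, pow_succ, nc]
    · omega
    · rw [disjoint_left]
      intro s h1 h2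
      simp only [mem_filter, mem_range, mem_Ico] at h1 h2
      omega

theorem mem_W {j : ℕ} {L : Set Word} (h : VP j Raw fun w => w.w ∈ L) : L ∈ W j := by
  obtain ⟨L', h1, h2⟩ := h.exists_mem_W
  rwa [show L = L' from Set.ext fun w => (h2 ⟨w⟩).symm]

end VP

theorem mem_W_of_CH {L : Set Word} (h : L ∈ CH) : L ∈ ⋃ j, W j := by
  obtain ⟨j, hj⟩ := mem_CH.1 h
  exact Set.mem_iUnion.2 ⟨_, (VP.of_mem_C j L hj).mem_W⟩

theorem ETR_mem_W : P337T.ETR ∈ ⋃ j, W j := P337T.ETR_eq ▸ mem_W_of_CH ETR_mem_CH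

theorem existsR_subset_W : ∃ j, P337T.ExistsR ⊆ W j := by
  obtain ⟨j, hj⟩ := exists_existsR_subset
  refine ⟨3 * j, ?_⟩
  rintro L ⟨f, hf, hL⟩
  exact (VP.of_mem_C j L (hj ⟨f, P337T.polyTime_iff.1 hf, fun x => by
    rw [hL, P337T.ETR_eq]⟩)).mem_W

end Vale.Agent.N337
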