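import Vale.Agent.N337.Grid
import Vale.Agent.N337.Toran

/-!
Good predicates: locally constant on the sign classes of a family of polynomials and decidable on
zero sets; quantifier free formulas are good. A solution of a satisfiable formula whose quantifier
free type is decided in the counting hierarchy, and real zeros of exponential sums of polynomials.
-/

namespace Vale.Agent.N337

open Vale.Agent.Lib.PolyTime Vale.Agent.P337 Finset Filter Topology

variable {α : Type} [Enc α]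

/-- It is decidable in the counting hierarchy whether `ψ` holds at a zero of a nonnegative
polynomial. -/
def Test (ψ : α → (ℕ → ℝ) → Prop) : Prop :=
  ∀ (β : Type) [Enc β] (π : β → α), CHF π → ∀ M : β → ℕ, CHF M → PBd M →
    ∀ q : β → (ℕ → ℝ) → ℝ, PF M q → (∀ b w, 0 ≤ q b w) → CHP fun b => ∃ w, q b w = 0 ∧ ψ (π b) w

/-- Good predicates of the first `N a` coordinates. -/
structure Good (N : α → ℕ) (ψ : α → (ℕ → ℝ) → Prop) : Prop where
  dep : ∀ a x y, (∀ i < N a, x i = y i) → (ψ a x ↔ ψ a y)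
  inv : ∃ S, Fam N S ∧ ∀ a x₀, ∀ᶠ x in 𝓝 x₀, Same (S a) x x₀ → (ψ a x ↔ ψ a x₀)
  test : Test ψ

variable {N : α → ℕ} {ψ : α → (ℕ → ℝ) → Prop}

theorem Good.chp (h : Good N ψ) : CHP fun a => ∃ x, ψ a x :=
  (h.test α (fun a => a) CHF.id (fun _ => 0) (CHF.const 0) (PBd.const 0) _ PF.zero
    fun _ _ => le_rfl).congr fun _ => by simp

theorem mg_false (x y : ℕ → ℝ) : mg (fun _ => False) x y = y := funext fun _ => if_neg id

/-- The derivatives of the univariate polynomials of a grid. -/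
theorem fam_thom {M D : α → ℕ} (hM : CHF M) (hD : CHF D) {A : α → ℕ → ℕ → ℕ → (ℕ → ℝ) → ℝ}
    (hA : PF (fun _ : ((α × ℕ) × ℕ) × ℕ => 0) fun x => A x.1.1.1 x.1.1.2 x.1.2 x.2) :
    ∃ S, Fam M S ∧ ∀ a (y w : ℕ → ℝ), (∀ i < M a, ∃ l ≤ D a, (∃ k ≤ D a, A a i l k 0 ≠ 0) ∧
      ∑ k ∈ range (D a + 1), A a i l k 0 * y i ^ k = 0) → Same (S a) w y →
      ∀ i < M a, w i = y i := by
  have h1 : PF (fun x : (((α × ℕ) × ℕ) × ℕ) × ℕ => M x.1.1.1.1) fun x w =>
      A x.1.1.1.1 x.1.1.1.2 x.1.1.2 x.2 w * (((x.2.descFactorial x.1.2 : ℕ) : ℤ) *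
        (if x.1.1.1.2 < M x.1.1.1.1 then w x.1.1.1.2 else 0) ^ (x.2 - x.1.2)) :=
    ((hA.comp (u := fun x : (((α × ℕ) × ℕ) × ℕ) × ℕ => (x.1.1, x.2)) (by fun_prop)).pad
      (CHF.const 0) (PBd.const 0) (by fun_prop) fun _ => Nat.zero_le _).mul
      (PF.mul (PF.int (MC.descFactorial (by fun_prop) (by fun_prop)))
        (PF.pow (PF.var (by fun_prop) (by fun_prop)) (by fun_prop)))
  set f : α → ℕ → ℕ → ℕ → (ℕ → ℝ) → ℝ := fun a i l j w => ∑ k ∈ range (D a + 1),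
    A a i l k w * (((k.descFactorial j : ℕ) : ℤ) * (if i < M a then w i else 0) ^ (k - j)) with hf
  have h2 : PF (fun x : ((α × ℕ) × ℕ) × ℕ => M x.1.1.1) fun x => f x.1.1.1 x.1.1.2 x.1.2 x.2 :=
    PF.sum (F := fun (x : ((α × ℕ) × ℕ) × ℕ) k w => A x.1.1.1 x.1.1.2 x.1.2 k w * (((k.descFactorial x.2 : ℕ) : ℤ) *
      (if x.1.1.2 < M x.1.1.1 then w x.1.1.2 else 0) ^ (k - x.2))) h1
      (m := fun x => D x.1.1.1 + 1) (by fun_prop)
  have h3 := Fam.bind (N := M) (U := fun a i => {g | ∃ l < D a + 1, g ∈ {g | ∃ j < D a + 1,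
      g ∈ ({f a i l j} : Set _)}}) (Fam.bind (N := fun x : α × ℕ => M x.1)
    (U := fun x l => {g | ∃ j < D x.1 + 1, g ∈ ({f x.1 x.2 l j} : Set _)})
    (Fam.bind (N := fun x : (α × ℕ) × ℕ => M x.1.1) (U := fun x j => {f x.1.1 x.1.2 x.2 j})
      (Fam.single h2) (m := fun x => D x.1.1 + 1) (by fun_prop))
    (m := fun x => D x.1 + 1) (by fun_prop)) hM
  refine ⟨_, h3, fun a y w hy hw i hi => ?_⟩
  obtain ⟨l, hl, h4, h5⟩ := hy i hi
  refine thom_sum h4 h5 fun j hj => ?_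
  have h6 := hw (f a i l j) ⟨i, hi, l, by omega, j, by omega, rfl⟩
  have h7 : ∀ k v, A a i l k v = A a i l k 0 := fun k v =>
    hA.dep (((a, i), l), k) fun _ h => absurd h (Nat.not_lt_zero _)
  simpa only [hf, if_pos hi, h7, Int.cast_natCast] using h6

theorem PF_rawEval {n : α → ℕ} (hn : CHF n) {q : α → LPoly} (hq : CHF q) :
    PF n fun a w => rawEval (n a) (q a) w := by
  have h1 : PF (fun x : (α × ℕ) × ℕ => n x.1.1) fun x w =>
      (if x.2 < n x.1.1 then w x.2 else 0) ^ ex (q x.1.1) x.1.2 x.2 :=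
    (PF.var (by fun_prop) (by fun_prop)).pow (by fun_prop)
  refine (PF.sum (F := fun a k w => (cf (q a) k : ℝ) *
    ∏ i ∈ range (n a), (if i < n a then w i else 0) ^ ex (q a) k i)
    ((PF.int (MC.intCast (by fun_prop))).mul (PF.prod (F := fun (x : α × ℕ) i w =>
      (if i < n x.1 then w i else 0) ^ ex (q x.1) x.2 i) h1 (by fun_prop)))
    (m := fun a => (q a).length) (by fun_prop)).congr fun a w => ?_
  exact sum_congr rfl fun k _ => congrArg _ (prod_congr rfl fun i hi => by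
    rw [if_pos (mem_range.1 hi)])

theorem sgc_congr {u v : ℝ} (h : SignType.sign u = SignType.sign v) : sgc u = sgc v := by
  unfold sgc
  simp only [← sign_eq_zero_iff (a := u), ← sign_eq_zero_iff (a := v), ← sign_eq_one_iff (a := u),
    ← sign_eq_one_iff (a := v), h]

theorem sgc_eq_iff {v : ℝ} {s : ℕ} (hs : s < 3) : sgc v = s ↔
    (if s = 0 then v else 0) = 0 ∧ 0 < if s = 0 then 1 else if s = 1 then v else -v := by
  unfold sgc
  rcases lt_trichotomy v 0 with h | rfl | h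
  · interval_cases s <;> simp [h, h.ne, h.not_gt]
  · interval_cases s <;> simp
  · interval_cases s <;> simp [h, h.ne', h.not_gt]

/-- The quantifier free matrix, on raw lists of symbols. -/
theorem good_matrix {I : α → Inst} (hI : CHF I) : Good (fun a => (I a).1.v) fun a x =>
    run ((I a).2.map fun t => (t, sgc (rawEval (I a).1.v t.2 x))) = (true, [true]) := by
  have hv : PF (fun x : α × ℕ => (I x.1).1.v) fun x w =>
      rawEval (I x.1).1.v (((I x.1).2.getD x.2 (⟨0⟩, [])).2) w :=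
    PF_rawEval (by fun_prop) (by fun_prop)
  refine ⟨fun a x y h => ?_, ⟨_, Fam.bind (N := fun a => (I a).1.v) (U := fun a j =>
    {fun w => rawEval (I a).1.v (((I a).2.getD j (⟨0⟩, [])).2) w}) (Fam.single hv)
    (m := fun a => (I a).2.length) (by fun_prop), fun a x₀ => Eventually.of_forall fun x h => ?_⟩,
    ?_⟩
  · simp only [rawEval_congr _ h]
  · rw [List.map_congr_left fun t ht => ?_]
    obtain ⟨j, hj, rfl⟩ := List.getElem_of_mem ht
    have := h _ ⟨j, hj, rfl⟩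
    rw [List.getD_eq_getElem _ _ hj] at this
    rw [sgc_congr this]
  intro β _ π hπ M hM hMb q hq hq0
  have hv' : PF (fun x : (β × List ℕ) × ℕ => M x.1.1 + (I (π x.1.1)).1.v) fun x w =>
      rawEval (I (π x.1.1)).1.v (((I (π x.1.1)).2.getD x.2 (⟨0⟩, [])).2) w :=
    (hv.comp (u := fun x : (β × List ℕ) × ℕ => (π x.1.1, x.2)) (by fun_prop)).pad (by fun_prop)
      (by fun_prop) (by fun_prop) fun _ => Nat.le_add_left _ _
  set v : β → ℕ → (ℕ → ℝ) → ℝ := fun b j w =>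
    rawEval (I (π b)).1.v (((I (π b)).2.getD j (⟨0⟩, [])).2) w with hvd
  replace hv' : PF (fun x : (β × List ℕ) × ℕ => M x.1.1 + (I (π x.1.1)).1.v)
    fun x => v x.1.1 x.2 := hv'
  obtain ⟨q', h1, h2, h3, h4⟩ := PF.basic (N := fun x : β × List ℕ => M x.1 + (I (π x.1)).1.v)
    (by fun_prop) (by fun_prop) ((hq.comp (u := fun x : β × List ℕ => x.1) (by fun_prop)).pad
      (by fun_prop) (by fun_prop) (by fun_prop) fun _ => Nat.le_add_right _ _) (fun x => hq0 x.1)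
    (PF.sum (F := fun x j w => (if x.2.getD j 0 = 0 then v x.1 j w else 0) ^ 2)
      (PF.ite (by fun_prop) hv' PF.zero).sq (m := fun x => (I (π x.1)).2.length) (by fun_prop))
    (F := fun x j w => if x.2.getD j 0 = 0 then 1 else if x.2.getD j 0 = 1 then v x.1 j w
      else -v x.1 j w) (PF.ite (by fun_prop) PF.one (PF.ite (by fun_prop) hv' hv'.neg))
    (m := fun x => (I (π x.1)).2.length) (by fun_prop)
  have key : ∀ b (σ : List ℕ) w, σ.length = (I (π b)).2.length →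
      (∀ j < (I (π b)).2.length, sgc (v b j w) = σ.getD j 0) → (I (π b)).2.zip σ =
        (I (π b)).2.map fun t => (t, sgc (rawEval (I (π b)).1.v t.2 w)) := fun b σ w h5 h6 => by
    refine List.ext_getElem (by simp [h5]) fun j h7 h8 => ?_
    rw [List.length_map] at h8
    have := h6 j h8
    simp only [hvd, List.getD_eq_getElem _ _ h8, List.getD_eq_getElem _ _ (h5 ▸ h8)] at this
    rw [List.getElem_zip, List.getElem_map, this]
  refine (CHP.exists_list (p := fun b σ => run ((I (π b)).2.zip σ) = (true, [true]) ∧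
    ∃ w, q' (b, σ) w = 0) ((CHP.eq (CHF_run.comp (by fun_prop)) (CHF.const _)).and
      (h1.core (by fun_prop) (by fun_prop) h2)) (CHF.const 3) (k := fun b => (I (π b)).2.length)
    (by fun_prop) (by fun_prop)).congr fun b => ⟨?_, ?_⟩
  · rintro ⟨σ, h5, h6, h7, w, h8⟩
    obtain ⟨h9, h10, h11⟩ := h3 _ w h8
    refine ⟨w, h9, (congrArg run
      (key b σ w h5 fun j hj => (sgc_eq_iff ?_).2 ⟨?_, h11 j hj⟩)).symm.trans h7⟩
    · rw [List.getD_eq_getElem _ _ (h5 ▸ hj)]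
      exact h6 _ (List.getElem_mem _)
    · exact pow_eq_zero_iff two_ne_zero |>.1 ((sum_eq_zero_iff_of_nonneg
        fun _ _ => sq_nonneg _).1 h10 j (mem_range.2 hj))
  · rintro ⟨w, h5, h6⟩
    have h7 : ∀ j < (I (π b)).2.length, sgc (v b j w) =
        ((List.range (I (π b)).2.length).map fun j => sgc (v b j w)).getD j 0 := fun j hj => by
      rw [List.getD_eq_getElem _ _ (by simpa using hj)]
      simp
    have h8 := fun j hj => (sgc_eq_iff (h7 j hj ▸ sgc_lt _)).1 (h7 j hj)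
    obtain ⟨w', -, h9⟩ := h4 (b, _) w h5 (sum_eq_zero fun j hj => by
      rw [(h8 j (mem_range.1 hj)).1, sq, mul_zero]) fun j hj => (h8 j hj).2
    refine ⟨_, by simp, fun s hs => ?_, (congrArg run (key b _ w (by simp) h7)).trans h6, w', h9⟩
    obtain ⟨j, -, rfl⟩ := List.mem_map.1 hs
    exact sgc_lt _

/-- It is decidable whether all zeros have the same first `n a` coordinates. -/
theorem CHP_unique {M n : α → ℕ} (hM : CHF M) (hMb : PBd M) (hn : CHF n) (hnM : ∀ a, n a ≤ M a)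
    {q : α → (ℕ → ℝ) → ℝ} (hq : PF M q) (hq0 : ∀ a w, 0 ≤ q a w) :
    CHP fun a => ∀ w w', q a w = 0 → q a w' = 0 → ∀ i < n a, w i = w' i := by
  have h1 : PF (fun a => M a + M a) fun a w => q a w + q a fun i => w (M a + i) :=
    (hq.pad hM hMb (by fun_prop) fun _ => Nat.le_add_right _ _).add
      (hq.ren hM hMb (ρ := fun a i => M a + i) (by fun_prop) (by fun_prop) fun a i hi => by omega)
  obtain ⟨q', h3, h4, h5, h6⟩ := PF.basic (N := fun x : α × ℕ => M x.1 + M x.1) (by fun_prop)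
    (by fun_prop) (h1.comp (u := fun x : α × ℕ => x.1) (by fun_prop))
    (fun x w => add_nonneg (hq0 _ _) (hq0 _ _)) PF.zero
    (F := fun x _ w => ((if x.2 < M x.1 + M x.1 then w x.2 else 0) -
      if M x.1 + x.2 < M x.1 + M x.1 then w (M x.1 + x.2) else 0) ^ 2)
    ((PF.var (by fun_prop) (by fun_prop)).sub (PF.var (by fun_prop) (by fun_prop))).sq
    (m := fun _ => 1) (CHF.const 1)
  refine (CHP.exists_lt (p := fun a i => ∃ w, q' (a, i) w = 0)
    (h3.core (by fun_prop) (by fun_prop) h4) hn).not.congr fun a => ⟨?_, ?_⟩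
  · intro h w w' hw hw' i hi
    have hi' := hi.trans_le (hnM a)
    by_contra h7
    obtain ⟨v, -, hv⟩ := h6 (a, i) (fun j => if j < M a then w j else w' (j - M a)) (by
      rw [hq.dep a (y := w) fun j hj => if_pos hj, hw, zero_add, ← hw']
      congr 1
      funext j
      simp) rfl fun _ _ => by
        dsimp only
        rw [if_pos (by omega), if_pos hi', if_pos (by omega), if_neg (by omega),
          Nat.add_sub_cancel_left]
        exact sq_pos_of_ne_zero (sub_ne_zero.2 h7)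
    exact h ⟨i, hi, v, hv⟩
  · rintro h ⟨i, hi, w, hw⟩
    have hi' := hi.trans_le (hnM a)
    obtain ⟨h7, -, h8⟩ := h5 _ w hw
    have h9 := (add_eq_zero_iff_of_nonneg (hq0 _ _) (hq0 _ _)).1 h7
    have h10 := h8 0 one_pos
    dsimp only at h10
    rw [if_pos (by omega), if_pos (by omega), h _ _ h9.1 h9.2 i hi] at h10
    simp at h10

/-- A nonempty set given by a good predicate contains a point which is pinned down by a
nonnegative polynomial. -/
theorem pin (hN : CHF N) (hNb : PBd N) (h : Good N ψ) :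
    ∃ M : α → ℕ, CHF M ∧ PBd M ∧ ∃ q : α → (ℕ → ℝ) → ℝ, PF M q ∧ (∀ a w, 0 ≤ q a w) ∧
      ∀ a, (∃ x, ψ a x) → ∃ w, (q a w = 0 ∧ ψ a w) ∧
        ∀ w', q a w' = 0 → ∀ i < N a, w' i = w i := by
  obtain ⟨S, hS, hS'⟩ := h.inv
  obtain ⟨C₁, hC₁, M₁, hM₁, hM₁b, hM₁', q₁, hq₁, hq₁0, -, h2⟩ :=
    cls' hN hNb hS PF.zero fun _ _ => le_rfl
  obtain ⟨D, hD, A, hA, h3⟩ := grid (N := fun _ => 0) (CHF.const 0) hM₁ hM₁b
    (p := fun _ _ => False) (CHP.const False) (fun _ _ => False.elim) hq₁ hq₁0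
  simp only [mg_false] at h3
  obtain ⟨T, hT, hT'⟩ := fam_thom hM₁ hD hA
  obtain ⟨C₂, hC₂, M₂, hM₂, hM₂b, hM₂', q₂, hq₂, hq₂0, -, h5⟩ := cls' hM₁ hM₁b hT hq₁ hq₁0
  obtain ⟨V, hV, hV'⟩ : ∃ V : (α × ℕ) × ℕ → Prop, CHP V ∧ ∀ x, V x ↔
      (∃ w, q₂ x w = 0 ∧ ψ x.1.1 w) ∧
        ∀ w w', q₂ x w = 0 → q₂ x w' = 0 → ∀ i < N x.1.1, w i = w' i :=
    ⟨_, (h.test _ (fun x : (α × ℕ) × ℕ => x.1.1) (by fun_prop) M₂ hM₂ hM₂b q₂ hq₂ hq₂0).and
      (CHP_unique (n := fun x : (α × ℕ) × ℕ => N x.1.1) hM₂ hM₂b (by fun_prop)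
        (fun x => (hM₁' x.1).trans (hM₂' x)) hq₂ hq₂0), fun _ => Iff.rfl⟩
  have h6 := CHF.least (p := fun a c => ∃ c', c' < C₂ (a, c) ∧ V ((a, c), c'))
    (CHP.exists_lt (p := fun x c' => V (x, c')) hV hC₂) hC₁
  set c₁ : α → ℕ := fun a => least (C₁ a) fun c => ∃ c', c' < C₂ (a, c) ∧ V ((a, c), c')
    with hc₁
  have h7 := CHF.least (p := fun a c' => V ((a, c₁ a), c'))
    (hV.comp (f := fun x : α × ℕ => ((x.1, c₁ x.1), x.2)) (by fun_prop))
    (m := fun a => C₂ (a, c₁ a)) (by fun_prop)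
  have h8 : CHF fun a => ((a, c₁ a), least (C₂ (a, c₁ a)) fun c' => V ((a, c₁ a), c')) :=
    (CHF.id.pair h6).pair h7
  refine ⟨_, hM₂.comp h8, PBd_comp hM₂b h8, _, hq₂.comp h8, fun a => hq₂0 _, ?_⟩
  rintro a ⟨x₀, h9⟩
  have h10 : ∃ c, c < C₁ a ∧ ∃ c', c' < C₂ (a, c) ∧ V ((a, c), c') := by
    obtain ⟨c, hc, ⟨w₀, h10, h11⟩, h12⟩ := h2 a x₀ rfl
    have hle : N a ≤ M₁ (a, c) := hM₁' (a, c)
    obtain ⟨y, h13, h14, h15⟩ := h3 (a, c) 0 (ψ a)
      (fun y y' hy => h.dep _ _ _ fun i hi => hy i (hi.trans_le hle))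
      (fun y₀ hy₀ => (hS' a y₀).mono fun y hy h13 => hy ((h12 y h13).trans (h12 y₀ hy₀).symm)) w₀
      h11 ((h.dep _ _ _ h10).2 h9)
    obtain ⟨c', hc', ⟨w, h16, h17⟩, h18⟩ := h5 (a, c) y h13
    exact ⟨c, hc, c', hc', (hV' _).2 ⟨⟨w, h17, (h.dep _ _ _ fun i hi =>
      h16 i (hi.trans_le hle)).2 h14⟩, fun w w' hw hw' i hi =>
        (hT' _ y w h15 (h18 w hw) i (hi.trans_le hle)).trans
          (hT' _ y w' h15 (h18 w' hw') i (hi.trans_le hle)).symm⟩⟩
  obtain ⟨⟨w, h11⟩, h12⟩ := (hV' _).1 (least_spec (least_spec h10).2).2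
  exact ⟨w, h11, fun w' hw' => h12 w' w hw' h11.1⟩

/-- The raw sentence, read as a formula, is true at `x`. -/
def Mat (I : Inst) (x : ℕ → ℝ) : Prop :=
  run (I.2.map fun t => (t, sgc (rawEval I.1.v t.2 x))) = (true, [true])

theorem ann_eq (n : ℕ) (x : ℕ → ℝ) :
    (fun t : Tok => (t, sgc (rawEval n t.2 x))) = ann n fun i => x i :=
  funext fun t => by rw [ann, evalL_eq n _ _ x fun _ => rfl]

theorem mat_toks {n : ℕ} (φ : P337T.Formula n) (x : ℕ → ℝ) :
    Mat (⟨n⟩, toks (P337T.conv φ)) x ↔ φ.Holds fun i => x i := by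
  have h := run_toks (fun i : Fin n => x i) (P337T.conv φ) []
  rw [List.append_nil] at h
  rw [Mat, ann_eq, h, ← P337T.holds_conv, ← tv_iff]
  simp [run]

theorem mat_parse {n : ℕ} {ts : List Tok} (hwf : ∀ t ∈ ts, WF n t.2) {x : ℕ → ℝ}
    (h : Mat (⟨n⟩, ts) x) : ∃ φ : P337T.Formula n, ts = toks (P337T.conv φ) := by
  rw [Mat, ann_eq] at h
  obtain ⟨φs, h1, h2⟩ := exists_parse _ ts hwf (by rw [h])
  rw [h] at h2
  obtain ⟨φ, rfl⟩ := List.length_eq_one_iff.1
    (show φs.length = 1 by simpa using (congrArg List.length h2).symm)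
  obtain ⟨φ, rfl⟩ := P337T.conv_surjective φ
  exact ⟨φ, by simpa using h1⟩

theorem search : ∃ sol : (n : ℕ) → P337T.Formula n → Fin n → ℝ,
    (∀ n (φ : P337T.Formula n), (∃ x, φ.Holds x) → φ.Holds (sol n φ)) ∧
    {w | ∃ (n : ℕ) (φ ψ : P337T.Formula n),
      w = P337T.pair (P337T.sentenceCode n φ) (P337T.sentenceCode n ψ) ∧
        φ.Holds (sol n φ) ∧ ψ.Holds (sol n φ)} ∈ ⋃ j, W j := by
  have hG : Good (fun I : Inst => I.1.v) Mat := good_matrix (I := fun I => I) CHF.id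
  obtain ⟨M, hM, hMb, q, hq, hq0, h⟩ := pin (by fun_prop) (by fun_prop) hG
  choose! s h1 h2 using h
  have hc : ∀ n (φ ψ : P337T.Formula n),
      P337T.pair (P337T.sentenceCode n φ) (P337T.sentenceCode n ψ) =
        enc (((⟨n⟩, toks (P337T.conv φ)), (⟨n⟩, toks (P337T.conv ψ))) : Inst × Inst) :=
    fun n φ ψ => by
      rw [← P337T.sentenceCode_conv, ← P337T.sentenceCode_conv, sentenceCode_eq, sentenceCode_eq,
        P337T.pair_eq, pair_eq_pr]
      rfl
  have hwf : CHP fun I : Inst => ∀ t ∈ I.2, WF I.1.v t.2 := by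
    have h1 : CHF (fun I : Inst => I.2.all fun t => t.2.all fun m =>
        decide (m.2.length = I.1.v)) := by fun_prop
    exact (CHP.of_bool h1).congr fun I => by simp [WF]
  have hP : CHP fun b : Inst × Inst => (b.1.1 = b.2.1 ∧ (∀ t ∈ b.1.2, WF b.1.1.v t.2) ∧
      ∀ t ∈ b.2.2, WF b.2.1.v t.2) ∧ (∃ x, Mat b.1 x) ∧ ∃ w, q b.1 w = 0 ∧ Mat b.2 w :=
    ((CHP.eq (by fun_prop) (by fun_prop)).and ((hwf.comp (f := fun b : Inst × Inst => b.1)
      (by fun_prop)).and (hwf.comp (f := fun b : Inst × Inst => b.2) (by fun_prop)))).and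
      ((hG.chp.comp (f := fun b : Inst × Inst => b.1) (by fun_prop)).and
        (hG.test _ (fun b : Inst × Inst => b.2) (by fun_prop) (fun b => M b.1) (by fun_prop)
          (by fun_prop) _ (hq.comp (u := fun b : Inst × Inst => b.1) (by fun_prop))
          fun b => hq0 b.1))
  refine ⟨fun n φ i => s (⟨n⟩, toks (P337T.conv φ)) i, fun n φ ⟨x, hx⟩ =>
    (mat_toks φ _).1 (h1 _ ⟨P337.ext x, (mat_toks φ _).2 (by simpa only [ext_val] using hx)⟩).2,
    mem_W_of_CH ?_⟩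
  convert codes_mem_CH hP using 2
  ext w
  constructor
  · rintro ⟨n, φ, ψ, rfl, h3, h4⟩
    have h5 := (mat_toks φ _).2 h3
    exact ⟨_, hc n φ ψ, ⟨rfl, WF_toks _, WF_toks _⟩, ⟨_, h5⟩, _, (h1 _ ⟨_, h5⟩).1,
      (mat_toks ψ _).2 h4⟩
  · rintro ⟨⟨⟨⟨n⟩, ts⟩, ⟨_, ts'⟩⟩, rfl, ⟨⟨⟩, h3, h4⟩, ⟨x, h5⟩, w, h6, h7⟩
    obtain ⟨φ, rfl⟩ := mat_parse (n := n) (ts := ts) h3 h5
    obtain ⟨ψ, rfl⟩ := mat_parse (n := n) (ts := ts') h4 h7
    exact ⟨n, φ, ψ, (hc n φ ψ).symm, (mat_toks φ _).1 (h1 _ ⟨x, h5⟩).2,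
      (mat_toks ψ _).1 ((hG.dep (⟨n⟩, toks (P337T.conv ψ)) _ _ (h2 _ ⟨x, h5⟩ w h6)).1 h7)⟩

theorem sum_words {R : Type*} [AddCommMonoid R] (m : ℕ) (g : Word → R) :
    ∑ e : Fin m → Bool, g (List.ofFn e) = ∑ s ∈ range (2 ^ m), g (padW m s) := by
  refine sum_bij' (fun e _ => val (List.ofFn e))
    (fun s _ i => (padW m s)[i.1]'(by rw [length_padW]; exact i.2)) (fun e _ => ?_)
    (fun _ _ => mem_univ _) (fun e _ => ?_) (fun s hs => ?_) fun e _ => ?_
  · simpa using val_lt (List.ofFn e)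
  · funext i
    simp [padW_val (List.length_ofFn (f := e))]
  · refine Eq.trans ?_ (val_padW (mem_range.1 hs))
    congr 1
    exact List.ext_getElem (by simp [length_padW]) fun i _ _ => by simp
  · rw [padW_val List.length_ofFn]

theorem expSum {f : Word → Word} {T : Polynomial ℕ}
    {p : (w e : Word) → P337T.Poly (T.eval w.length)} (hf : P337T.PolyTime f)
    (hp : ∀ w e, f (P337T.pair w e) = P337T.polyCode (p w e)) :
    {w | ∃ x : Fin (T.eval w.length) → ℝ,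
      ∑ e : Fin (T.eval w.length) → Bool, (p w (List.ofFn e)).eval x = 0} ∈ ⋃ j, W j := by
  obtain ⟨u, hu, hu'⟩ := FP.exists_poly (A := ∅) T FP.id
  have h1 : PT ∅ fun a : Raw => T.eval a.w.length :=
    (PT.rawLength (PT_ofFP hu PT.id)).congr fun a => hu' a.w
  have h2 : PBd fun a : Raw => T.eval a.w.length := PBd.of_PB (PB.of_polynomial T)
  have h3 : PT ∅ fun x : Raw × ℕ => toL (p x.1.w (padW (T.eval x.1.w.length) x.2)) :=
    ((Dec.pt (α := LPoly)).comp (PT_ofFP (polyTimeFun_iff.1 (P337T.polyTime_iff.1 hf))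
      (PT_toRaw (PT.fst'.pair (PT_padW (h1.comp PT.fst') (h2.comp (A := ∅) PT.fst') PT.snd'))))).congr
      fun x => by
        dsimp only
        rw [enc_pair, enc_raw, enc_raw, ← pair_eq_pr, ← P337T.pair_eq, hp, P337T.polyCode_eq,
          polyCode_eq, dec_enc]
  have h4 := CHF.of_PT h1
  refine mem_W_of_CH (mem_CH_of_CHP (((PF.sum (N := fun a : Raw => T.eval a.w.length)
    (F := fun a s w => rawEval (T.eval a.w.length)
      (toL (p a.w (padW (T.eval a.w.length) s))) w)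
    (PF_rawEval (CHF.of_PT (h1.comp PT.fst')) (CHF.of_PT h3))
    (m := fun a => 2 ^ T.eval a.w.length) ((CHF.const 2).pow h4 h2)).sq.core h4 h2
    fun _ _ => sq_nonneg _).congr fun a => ?_))
  have h5 : ∀ w : ℕ → ℝ, ∑ s ∈ range (2 ^ T.eval a.w.length), rawEval (T.eval a.w.length)
      (toL (p a.w (padW (T.eval a.w.length) s))) w =
      ∑ e : Fin (T.eval a.w.length) → Bool, (p a.w (List.ofFn e)).eval fun i => w i := fun w => by
    rw [sum_words _ fun e => (p a.w e).eval fun i => w i]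
    exact sum_congr rfl fun s _ => (evalL_eq _ _ _ w fun _ => rfl).symm.trans (evalL_toL _ _)
  simp only [h5, sq_eq_zero_iff]
  exact ⟨fun ⟨w, hw⟩ => ⟨_, hw⟩, fun ⟨x, hx⟩ => ⟨P337.ext x, by simpa only [ext_val] using hx⟩⟩

end Vale.Agent.N337
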