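import Vale.Agent.P337T.Defs

/-!
The counting hierarchy in the original form of Wagner: iterated majority quantifiers in front of
a polynomial time predicate.
-/

namespace Vale.Agent.N337

open Vale.Agent.P337T

/-- The languages `L` such that, for a polynomial `T`, a word `x` lies in `L` exactly when the pair
of `x` and `y` lies in `A` for more than half of the words `y` of length `T (|x|)`. -/
def Maj (A : Set (List Bool)) : Set (Set (List Bool)) :=
  {L | ∃ T : Polynomial ℕ, ∀ x : List Bool, x ∈ L ↔ 2 ^ T.eval x.length <
    2 * {y : List Bool | y.length = T.eval x.length ∧ pair x y ∈ A}.ncard}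

/-- The levels of the counting hierarchy: `W₀ = P`, `W_{j+1} = ⋃_{A ∈ W_j} Maj A`. -/
def W : ℕ → Set (Set (List Bool))
  | 0 => P
  | j + 1 => ⋃ A ∈ W j, Maj A

end Vale.Agent.N337
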